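import Mathlib.Analysis.Matrix.Order
import Mathlib.Analysis.Matrix.PosDef
import Mathlib.LinearAlgebra.Matrix.SchurComplement
import Mathlib.Tactic
import Mathlib.MeasureTheory.Constructions.BorelSpace.Real
import Mathlib.MeasureTheory.Function.L1Space.Integrable
import Mathlib.MeasureTheory.Function.LpSeminorm.Basic
import Mathlib.MeasureTheory.Group.Integral
import Mathlib.MeasureTheory.Integral.Bochner.ContinuousLinearMap
import Mathlib.MeasureTheory.Integral.Bochner.Set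
import Mathlib.MeasureTheory.Integral.DominatedConvergence
import Mathlib.MeasureTheory.Integral.Prod
import Mathlib.MeasureTheory.Measure.Haar.NormedSpace
import Mathlib.MeasureTheory.Measure.Haar.OfBasis
import Mathlib.MeasureTheory.Measure.Lebesgue.Basic
import Mathlib.MeasureTheory.Measure.Lebesgue.EqHaar
import Mathlib.Topology.Algebra.Support
import Vale.Agent.P075.Defs

set_option linter.all false

section

section

set_option linter.unusedSectionVars false

namespace Vale.Agent.P075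

open Matrix

variable {n m : Type*} [Fintype n] [DecidableEq n] [Fintype m] [DecidableEq m]

/-- the resolvent `(1 + X)⁻¹` -/
noncomputable def res (X : Matrix n n ℝ) : Matrix n n ℝ := (1 + X)⁻¹

/-- the saturated function `X (1 + X)⁻¹ = 1 - (1 + X)⁻¹` -/
noncomputable def phi (X : Matrix n n ℝ) : Matrix n n ℝ := 1 - res X

section basic

omit [DecidableEq n] in
theorem exists_sq {V : Matrix n n ℝ} (hV : V.PosSemidef) :
    ∃ B : Matrix n n ℝ, B.PosSemidef ∧ B * B = V := by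
  classical
  open scoped MatrixOrder in
  exact ⟨CFC.sqrt V, (CFC.sqrt_nonneg V).posSemidef, CFC.sqrt_mul_sqrt_self V hV.nonneg⟩

omit [DecidableEq n] in
theorem psd_isSymm {V : Matrix n n ℝ} (hV : V.PosSemidef) : Vᵀ = V := by
  have := hV.1
  rw [IsHermitian, conjTranspose_eq_transpose_of_trivial] at this
  exact this

omit [DecidableEq n] in
theorem psd_conj {V : Matrix n n ℝ} (hV : V.PosSemidef) {m : Type*} [Fintype m]
    (B : Matrix m n ℝ) : (B * V * Bᵀ).PosSemidef := by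
  have := hV.mul_mul_conjTranspose_same B
  rwa [conjTranspose_eq_transpose_of_trivial] at this

omit [DecidableEq n] in
/-- conjugation by a symmetric matrix -/
theorem psd_conj_symm {V : Matrix n n ℝ} (hV : V.PosSemidef) {B : Matrix n n ℝ} (hB : Bᵀ = B) :
    (B * V * B).PosSemidef := by
  have := psd_conj hV B
  rwa [hB] at this

omit [DecidableEq n] in
theorem psd_sq {B : Matrix n n ℝ} (hB : Bᵀ = B) : (B * B).PosSemidef := by
  have := posSemidef_self_mul_conjTranspose B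
  rwa [conjTranspose_eq_transpose_of_trivial, hB] at this

omit [DecidableEq n] in
theorem psd_mul_transpose {m : Type*} [Fintype m] (B : Matrix n m ℝ) : (B * Bᵀ).PosSemidef := by
  have := posSemidef_self_mul_conjTranspose B
  rwa [conjTranspose_eq_transpose_of_trivial] at this

omit [DecidableEq n] in
theorem psd_transpose_mul {m : Type*} [Fintype m] (B : Matrix m n ℝ) : (Bᵀ * B).PosSemidef := by
  have := posSemidef_conjTranspose_mul_self B
  rwa [conjTranspose_eq_transpose_of_trivial] at this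

omit [DecidableEq n] in
theorem trace_mul_nonneg {U V : Matrix n n ℝ} (hU : U.PosSemidef) (hV : V.PosSemidef) :
    0 ≤ (U * V).trace := by
  obtain ⟨B, hB, rfl⟩ := exists_sq hU
  rw [Matrix.mul_assoc, trace_mul_comm]
  exact (psd_conj_symm hV (psd_isSymm hB)).trace_nonneg

omit [DecidableEq n] in
theorem trace_sq_nonneg {B : Matrix n n ℝ} (hB : Bᵀ = B) : 0 ≤ (B * B).trace :=
  (psd_sq hB).trace_nonneg

omit [DecidableEq n] in
/-- monotonicity of the trace against a PSD matrix -/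
theorem trace_mul_le_right {U V W : Matrix n n ℝ} (hU : U.PosSemidef) (h : (W - V).PosSemidef) :
    (U * V).trace ≤ (U * W).trace := by
  have := trace_mul_nonneg hU h
  rw [Matrix.mul_sub, trace_sub] at this
  linarith

omit [DecidableEq n] in
theorem trace_mul_le_left {U V W : Matrix n n ℝ} (hU : U.PosSemidef) (h : (W - V).PosSemidef) :
    (V * U).trace ≤ (W * U).trace := by
  have := trace_mul_nonneg h hU
  rw [Matrix.sub_mul, trace_sub] at this
  linarith

end basic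

section resolvent

variable {X : Matrix n n ℝ}

theorem posDef_one_add (hX : X.PosSemidef) : (1 + X).PosDef :=
  PosDef.one.add_posSemidef hX

theorem res_posDef (hX : X.PosSemidef) : (res X).PosDef := (posDef_one_add hX).inv

theorem res_psd (hX : X.PosSemidef) : (res X).PosSemidef := (res_posDef hX).posSemidef

theorem res_mul_one_add (hX : X.PosSemidef) : res X * (1 + X) = 1 := by
  rw [res]
  exact Matrix.nonsing_inv_mul _ ((Matrix.isUnit_iff_isUnit_det _).mp (posDef_one_add hX).isUnit)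

theorem one_add_mul_res (hX : X.PosSemidef) : (1 + X) * res X = 1 := by
  rw [res]
  exact Matrix.mul_nonsing_inv _ ((Matrix.isUnit_iff_isUnit_det _).mp (posDef_one_add hX).isUnit)

theorem res_mul (hX : X.PosSemidef) : res X * X = 1 - res X := by
  have h := res_mul_one_add hX
  rw [Matrix.mul_add, Matrix.mul_one] at h
  exact eq_sub_of_add_eq' h

theorem mul_res (hX : X.PosSemidef) : X * res X = 1 - res X := by
  have h := one_add_mul_res hX
  rw [Matrix.add_mul, Matrix.one_mul] at h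
  exact eq_sub_of_add_eq' h

theorem res_mul_phi (hX : X.PosSemidef) : res X * X = phi X := res_mul hX

theorem mul_res_phi (hX : X.PosSemidef) : X * res X = phi X := mul_res hX

theorem res_symm (hX : X.PosSemidef) : (res X)ᵀ = res X := psd_isSymm (res_psd hX)

/-- `P - P² = P X P` -/
theorem res_sub_sq (hX : X.PosSemidef) : res X - res X * res X = res X * X * res X := by
  rw [res_mul hX]; noncomm_ring

theorem res_sub_sq_psd (hX : X.PosSemidef) : (res X - res X * res X).PosSemidef := by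
  rw [res_sub_sq hX]
  exact psd_conj_symm hX (res_symm hX)

theorem phi_psd (hX : X.PosSemidef) : (phi X).PosSemidef := by
  have h : phi X = res X * X * res X + (phi X) * (phi X) := by
    rw [← res_sub_sq hX, phi]; noncomm_ring
  rw [h]
  refine (psd_conj_symm hX (res_symm hX)).add (psd_sq ?_)
  rw [phi, transpose_sub, transpose_one, res_symm hX]

theorem phi_symm (hX : X.PosSemidef) : (phi X)ᵀ = phi X := psd_isSymm (phi_psd hX)

theorem one_sub_phi_psd (hX : X.PosSemidef) : (1 - phi X).PosSemidef := by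
  have : 1 - phi X = res X := by rw [phi]; noncomm_ring
  rw [this]; exact res_psd hX

theorem one_sub_res_psd (hX : X.PosSemidef) : (1 - res X).PosSemidef := phi_psd hX

/-- `a - a² = P X P` is PSD. -/
theorem phi_sub_sq_psd (hX : X.PosSemidef) : (phi X - phi X * phi X).PosSemidef := by
  have h : phi X - phi X * phi X = res X - res X * res X := by rw [phi]; noncomm_ring
  rw [h]; exact res_sub_sq_psd hX

end resolvent

end Vale.Agent.P075
end
end

section

section

set_option linter.unusedSectionVars false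

namespace Vale.Agent.P075

open Matrix

variable {n m : Type*} [Fintype n] [DecidableEq n] [Fintype m] [DecidableEq m]

/-- The resolvent is antitone. -/
theorem res_anti {X E : Matrix n n ℝ} (hX : X.PosSemidef) (hE : E.PosSemidef) :
    (res X - res (X + E)).PosSemidef := by
  have hZ : (X + E).PosSemidef := hX.add hE
  set P := res X with hP
  set Q := res (X + E) with hQ
  have h1 : Q * E * P = P - Q := by
    have e1 : Q * (X + E) = 1 - Q := res_mul hZ
    have e2 : X * P = 1 - P := mul_res hX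
    have : Q * E * P = (Q * (X + E)) * P - Q * (X * P) := by noncomm_ring
    rw [this, e1, e2]; noncomm_ring
  have h2 : P * E * Q = P - Q := by
    have e1 : (X + E) * Q = 1 - Q := mul_res hZ
    have e2 : P * X = 1 - P := res_mul hX
    have : P * E * Q = P * ((X + E) * Q) - (P * X) * Q := by noncomm_ring
    rw [this, e1, e2]; noncomm_ring
  have h3 : P - Q = Q * E * Q + Q * (E * P * E) * Q := by
    have : Q * (E * P * E) * Q = (Q * E * P) * E * Q := by noncomm_ring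
    rw [this, h1]
    have : (P - Q) * E * Q = P * E * Q - Q * E * Q := by noncomm_ring
    rw [this, h2]; noncomm_ring
  rw [h3]
  exact (psd_conj_symm hE (res_symm hZ)).add
    (psd_conj_symm (psd_conj_symm (res_psd hX) (psd_isSymm hE)) (res_symm hZ))

section two

variable {X X' : Matrix n n ℝ}

/-- `Gam = S - a - a' + a a' + a' a` written with resolvents. -/
noncomputable def Gam (X X' : Matrix n n ℝ) : Matrix n n ℝ :=
  1 - res (X + X') - res X - res X' + res X * res X' + res X' * res X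

theorem Gam_eq (X X' : Matrix n n ℝ) :
    Gam X X' = phi (X + X') - phi X - phi X' + phi X * phi X' + phi X' * phi X := by
  rw [Gam, phi, phi, phi]; noncomm_ring

theorem phi_add_eq (X X' : Matrix n n ℝ) :
    phi (X + X') = phi X + phi X' - (phi X * phi X' + phi X' * phi X) + Gam X X' := by
  rw [Gam_eq]; noncomm_ring

theorem Gam_psd (hX : X.PosSemidef) (hX' : X'.PosSemidef) : (Gam X X').PosSemidef := by
  have hZ : (X + X').PosSemidef := hX.add hX'
  have hanti : (res X' - res (X + X')).PosSemidef := by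
    rw [add_comm X X']; exact res_anti hX' hX
  have hP := res_symm hX
  have hX's := psd_isSymm hX'
  have key : Gam X X' = res X * (X' * (res X' - res (X + X')) * X') * res X
      + phi X * phi X' * phi X := by
    have e1 : res (X + X') * (X + X') = 1 - res (X + X') := res_mul hZ
    have e1' : (X + X') * res (X + X') = 1 - res (X + X') := mul_res hZ
    have e2 : X * res X = 1 - res X := mul_res hX
    have e2' : res X * X = 1 - res X := res_mul hX
    have e3 : X' * res X' = 1 - res X' := mul_res hX'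
    have e3' : res X' * X' = 1 - res X' := res_mul hX'
    simp only [Gam, phi]
    generalize res (X + X') = Q at *
    generalize res X = P at *
    generalize res X' = P' at *
    have h1 : Q * X' * P = P - Q := by
      have : Q * X' * P = (Q * (X + X')) * P - Q * (X * P) := by noncomm_ring
      rw [this, e1, e2]; noncomm_ring
    have h2 : P * X' * Q = P - Q := by
      have : P * X' * Q = P * ((X + X') * Q) - (P * X) * Q := by noncomm_ring
      rw [this, e1', e2']; noncomm_ring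
    have h3 : X' * P' * X' = X' - 1 + P' := by
      rw [e3, Matrix.sub_mul, Matrix.one_mul, e3']; noncomm_ring
    have h4 : P * (X' * (P' - Q) * X') * P
        = P * (X' * P' * X') * P - P * X' * (Q * X' * P) := by noncomm_ring
    have h5 : P * X' * (P - Q) = P * X' * P - P * X' * Q := by noncomm_ring
    rw [h4, h3, h1, h5, h2]
    noncomm_ring
  rw [key]
  refine (psd_conj_symm (psd_conj_symm hanti hX's) hP).add ?_
  exact psd_conj_symm (phi_psd hX') (phi_symm hX)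

theorem Gam_symm (hX : X.PosSemidef) (hX' : X'.PosSemidef) : (Gam X X')ᵀ = Gam X X' :=
  psd_isSymm (Gam_psd hX hX')

theorem one_sub_Gam_psd (hX : X.PosSemidef) (hX' : X'.PosSemidef) :
    (1 - Gam X X').PosSemidef := by
  have hZ : (X + X').PosSemidef := hX.add hX'
  have key : 1 - Gam X X' = res (X + X') + (phi X - phi X * phi X) + (phi X' - phi X' * phi X')
      + (phi X - phi X') * (phi X - phi X') := by
    simp only [Gam, phi]; noncomm_ring
  rw [key]
  refine (((res_psd hZ).add (phi_sub_sq_psd hX)).add (phi_sub_sq_psd hX')).add (psd_sq ?_)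
  rw [transpose_sub, phi_symm hX, phi_symm hX']

/-- subadditivity of the trace of `phi` -/
theorem trace_phi_add_le (hX : X.PosSemidef) (hX' : X'.PosSemidef) :
    (phi (X + X')).trace ≤ (phi X).trace + (phi X').trace := by
  have hZ : (X + X').PosSemidef := hX.add hX'
  have h1 : phi (X + X') = X * res (X + X') + X' * res (X + X') := by
    rw [← Matrix.add_mul, mul_res_phi hZ]
  have h2 : (X * res (X + X')).trace ≤ (X * res X).trace :=
    trace_mul_le_right hX (res_anti hX hX')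
  have h3 : (X' * res (X + X')).trace ≤ (X' * res X').trace := by
    refine trace_mul_le_right hX' ?_
    rw [add_comm X X']; exact res_anti hX' hX
  rw [mul_res_phi hX] at h2
  rw [mul_res_phi hX'] at h3
  rw [h1, trace_add]
  linarith

theorem trace_Gam_le (hX : X.PosSemidef) (hX' : X'.PosSemidef) :
    (Gam X X').trace ≤ 2 * (phi X * phi X').trace := by
  have h := trace_phi_add_le hX hX'
  rw [Gam_eq]
  simp only [trace_add, trace_sub]
  rw [trace_mul_comm (phi X') (phi X)]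
  linarith

theorem trace_Gam_sq_le (hX : X.PosSemidef) (hX' : X'.PosSemidef) :
    (Gam X X' * Gam X X').trace ≤ 2 * (phi X * phi X').trace := by
  have h1 : (Gam X X' * Gam X X').trace ≤ (Gam X X' * 1).trace :=
    trace_mul_le_right (Gam_psd hX hX') (one_sub_Gam_psd hX hX')
  rw [Matrix.mul_one] at h1
  exact h1.trans (trace_Gam_le hX hX')

/-- The commutator-type main deficiency term. -/
noncomputable def kap (a a' : Matrix n n ℝ) : Matrix n n ℝ := a * a' + a' * a

end two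

section absineq

variable {a a' b : Matrix n n ℝ}

/-- `tr((aa'+a'a) b) ≤ η tr(aa') + η⁻¹ tr(a' b)`, here with `η = 4`. -/
theorem trace_kap_mul_le (ha : a.PosSemidef) (ha1 : (1 - a).PosSemidef)
    (ha' : a'.PosSemidef) (hb : b.PosSemidef) (hb1 : (b - b * b).PosSemidef) :
    (kap a a' * b).trace ≤ 4 * (a * a').trace + (1 / 4) * (a' * b).trace := by
  have hbs := psd_isSymm hb
  -- positivity of `tr (a (4 - b) a' (4 - b))`
  have h0 : 0 ≤ (a * ((4 - b) * a' * (4 - b))).trace := by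
    refine trace_mul_nonneg ha (psd_conj_symm ha' ?_)
    rw [transpose_sub, hbs]
    congr 1
    exact transpose_ofNat 4
  have h1 : a * ((4 - b) * a' * (4 - b))
      = 16 * (a * a') - 4 * (a * b * a' + a * a' * b) + a * (b * a' * b) := by
    have h4 : (4 : Matrix n n ℝ) = (4 : ℤ) • 1 := by simp
    rw [h4]
    noncomm_ring
  have h2 : (a * (b * a' * b)).trace ≤ (1 * (b * a' * b)).trace :=
    trace_mul_le_left (psd_conj_symm ha' hbs) ha1
  have h3 : (b * a' * b).trace = (a' * (b * b)).trace := by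
    rw [Matrix.mul_assoc, trace_mul_comm, Matrix.mul_assoc]
  have h4 : (a' * (b * b)).trace ≤ (a' * b).trace := trace_mul_le_right ha' hb1
  have h5 : (a * b * a').trace = (a' * a * b).trace := by
    rw [trace_mul_comm, ← Matrix.mul_assoc]
  have e1 : ((16 : Matrix n n ℝ) * (a * a')).trace = 16 * (a * a').trace := by
    rw [show (16 : Matrix n n ℝ) = (16 : ℝ) • 1 by simp [smul_one_eq_diagonal]; rfl]
    simp
  have e2 : ((4 : Matrix n n ℝ) * (a * b * a' + a * a' * b)).trace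
      = 4 * ((a' * a * b).trace + (a * a' * b).trace) := by
    rw [show (4 : Matrix n n ℝ) = (4 : ℝ) • 1 by simp [smul_one_eq_diagonal]; rfl]
    simp [h5, mul_add]
  rw [h1, trace_add, trace_sub, e1, e2] at h0
  rw [Matrix.one_mul, h3] at h2
  rw [kap, Matrix.add_mul, trace_add]
  linarith

theorem trace_kap_sq_le (ha : a.PosSemidef) (ha1 : (1 - a).PosSemidef)
    (ha2 : (a - a * a).PosSemidef)
    (ha' : a'.PosSemidef) (ha1' : (1 - a').PosSemidef) (ha2' : (a' - a' * a').PosSemidef) :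
    (kap a a' * kap a a').trace ≤ 4 * (a * a').trace := by
  have has := psd_isSymm ha
  have has' := psd_isSymm ha'
  have h1 : kap a a' * kap a a' = a * a' * (a * a') + a * a' * (a' * a) + a' * a * (a * a')
      + a' * a * (a' * a) := by rw [kap]; noncomm_ring
  have t1 : (a * a' * (a * a')).trace ≤ (a * a').trace := by
    have e : (a * a' * (a * a')).trace = (a' * (a * a' * a)).trace := by
      rw [trace_mul_comm, Matrix.mul_assoc, trace_mul_comm, Matrix.mul_assoc]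
    have e2 : (a' * (a * a' * a)).trace ≤ (1 * (a * a' * a)).trace :=
      trace_mul_le_left (psd_conj_symm ha' has) ha1'
    have e3 : (a * a' * a).trace = (a' * (a * a)).trace := by
      rw [Matrix.mul_assoc, trace_mul_comm, Matrix.mul_assoc]
    have e4 : (a' * (a * a)).trace ≤ (a' * a).trace := trace_mul_le_right ha' ha2
    rw [Matrix.one_mul, e3] at e2
    rw [trace_mul_comm a a', e]
    exact e2.trans e4
  have t2 : (a * a' * (a' * a)).trace ≤ (a * a').trace := by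
    have e : (a * a' * (a' * a)).trace = (a * a * (a' * a')).trace := by
      rw [trace_mul_comm]
      rw [show a' * a * (a * a') = a' * (a * a * a') by noncomm_ring, trace_mul_comm]
      congr 1; noncomm_ring
    have e2 : (a * a * (a' * a')).trace ≤ (a * a * a').trace :=
      trace_mul_le_right (psd_sq has) ha2'
    have e3 : (a * a * a').trace ≤ (a * a').trace := trace_mul_le_left ha' ha2
    rw [e]; exact e2.trans e3
  have t3 : (a' * a * (a * a')).trace ≤ (a * a').trace := by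
    rw [trace_mul_comm]; exact t2
  have t4 : (a' * a * (a' * a)).trace ≤ (a * a').trace := by
    have e : (a' * a * (a' * a)).trace = (a * a' * (a * a')).trace := by
      rw [show a' * a * (a' * a) = a' * (a * a' * a) by noncomm_ring, trace_mul_comm]
      congr 1; noncomm_ring
    rw [e]; exact t1
  rw [h1]
  simp only [trace_add]
  linarith

end absineq

end Vale.Agent.P075
end
end

section

section

set_option linter.unusedSectionVars false
set_option linter.unusedVariables false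

namespace Vale.Agent.P075

open Matrix

variable {n m : Type*} [Fintype n] [DecidableEq n] [Fintype m] [DecidableEq m]

/-- log-determinant `log det (1 + X)` -/
noncomputable def ld (X : Matrix n n ℝ) : ℝ := Real.log (1 + X).det

theorem det_pos_one_add {X : Matrix n n ℝ} (hX : X.PosSemidef) : 0 < (1 + X).det :=
  (posDef_one_add hX).det_pos

/-- `det W ≤ exp (tr W - n)` for PSD `W`. -/
theorem det_le_exp {W : Matrix n n ℝ} (hW : W.PosSemidef) :
    W.det ≤ Real.exp (W.trace - Fintype.card n) := by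
  have h1 := hW.1.det_eq_prod_eigenvalues
  have h2 := hW.1.trace_eq_sum_eigenvalues
  simp only [RCLike.ofReal_real_eq_id, id_eq] at h1 h2
  have h3 : W.trace - (Fintype.card n : ℝ) = ∑ i, (hW.1.eigenvalues i - 1) := by
    rw [h2]; simp [Finset.sum_sub_distrib]
  rw [h1, h3, Real.exp_sum]
  refine Finset.prod_le_prod (fun i _ => hW.eigenvalues_nonneg i) (fun i _ => ?_)
  have := Real.add_one_le_exp (hW.1.eigenvalues i - 1)
  linarith

theorem det_mul_le_exp {M N : Matrix n n ℝ} (hM : M.PosSemidef) (hN : N.PosSemidef) :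
    M.det * N.det ≤ Real.exp ((M * N).trace - Fintype.card n) := by
  obtain ⟨B, hB, rfl⟩ := exists_sq hM
  have h1 : (B * B).det * N.det = (B * N * B).det := by
    simp only [det_mul]; ring
  have h2 : (B * B * N).trace = (B * N * B).trace := by
    rw [Matrix.mul_assoc, trace_mul_comm]
  rw [h1, h2]
  exact det_le_exp (psd_conj_symm hN (psd_isSymm hB))

theorem det_res {X : Matrix n n ℝ} (hX : X.PosSemidef) :
    (res X).det = ((1 + X).det)⁻¹ := by
  have h := congrArg det (res_mul_one_add hX)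
  rw [det_mul, det_one] at h
  exact eq_inv_of_mul_eq_one_left h

theorem log_det_res {X : Matrix n n ℝ} (hX : X.PosSemidef) :
    Real.log (res X).det = - ld X := by
  rw [det_res hX, Real.log_inv, ld]

/-- `y`-split inequality for the log-determinant -/
theorem ld_add_le {X X' : Matrix n n ℝ} (hX : X.PosSemidef) (hX' : X'.PosSemidef) :
    ld (X + X') + (phi X * phi X').trace ≤ ld X + ld X' := by
  obtain ⟨B, hB, rfl⟩ := exists_sq hX'
  have hBs := psd_isSymm hB
  set M : Matrix n n ℝ := 1 + B * res X * B with hM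
  have hMpd : (B * res X * B).PosSemidef := psd_conj_symm (res_psd hX) hBs
  have hMpos : 0 < M.det := det_pos_one_add hMpd
  have h1 : (1 + (X + B * B)).det = (1 + X).det * M.det := by
    have hu : IsUnit (1 + X).det := (det_pos_one_add hX).ne'.isUnit
    have := det_add_mul (A := 1 + X) B B hu
    rw [← add_assoc, this]
    rfl
  have h2 := det_mul_le_exp (posDef_one_add hMpd).posSemidef (res_psd hX')
  have h3 : ((1 + B * res X * B) * res (B * B)).trace - (Fintype.card n : ℝ)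
      = - (phi X * phi (B * B)).trace := by
    have e1 : ((1 + B * B) * res (B * B)).trace = (Fintype.card n : ℝ) := by
      rw [one_add_mul_res hX', trace_one]
    have e2 : ((1 + B * res X * B) * res (B * B)) = (1 + B * B) * res (B * B)
        - B * phi X * B * res (B * B) := by rw [phi]; noncomm_ring
    have e3 : B * res (B * B) = res (B * B) * B := by
      have f1 : res (B * B) * (1 + B * B) = 1 := res_mul_one_add hX'
      have f2 : (1 + B * B) * res (B * B) = 1 := one_add_mul_res hX'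
      calc B * res (B * B) = (res (B * B) * (1 + B * B)) * B * res (B * B) := by
            rw [f1, Matrix.one_mul]
        _ = res (B * B) * B * ((1 + B * B) * res (B * B)) := by noncomm_ring
        _ = res (B * B) * B := by rw [f2, Matrix.mul_one]
    have e4 : (B * phi X * B * res (B * B)).trace = (phi X * phi (B * B)).trace := by
      rw [show B * phi X * B * res (B * B) = B * (phi X * (B * res (B * B))) by noncomm_ring,
        trace_mul_comm, Matrix.mul_assoc, e3, Matrix.mul_assoc, res_mul_phi hX']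
    rw [e2, trace_sub, e1, e4]; ring
  rw [h3] at h2
  have hrpos : 0 < (res (B * B)).det := (res_posDef hX').det_pos
  have h4 := Real.log_le_log (mul_pos hMpos hrpos) h2
  rw [Real.log_exp, Real.log_mul hMpos.ne' hrpos.ne', log_det_res hX'] at h4
  have h5 : ld (X + B * B) = ld X + Real.log M.det := by
    rw [ld, h1, Real.log_mul (det_pos_one_add hX).ne' hMpos.ne', ld]
  rw [h5]
  have h6 : Real.log (1 + B * res X * B).det = Real.log M.det := rfl
  linarith

section mean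

variable {X₀ X₁ : Matrix n n ℝ}

/-- deficiency of operator concavity -/
noncomputable def delt (X₀ X₁ : Matrix n n ℝ) : Matrix n n ℝ :=
  phi ((1 / 2 : ℝ) • (X₀ + X₁)) - (1 / 2 : ℝ) • (phi X₀ + phi X₁)

/-- half difference -/
noncomputable def hdiff (X₀ X₁ : Matrix n n ℝ) : Matrix n n ℝ :=
  (1 / 2 : ℝ) • (phi X₀ - phi X₁)

theorem half_psd (h0 : X₀.PosSemidef) (h1 : X₁.PosSemidef) :
    ((1 / 2 : ℝ) • (X₀ + X₁)).PosSemidef := (h0.add h1).smul (by norm_num)

theorem mean_identities (h0 : X₀.PosSemidef) (h1 : X₁.PosSemidef) :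
    delt X₀ X₁ = (1 / 2 : ℝ) • (res ((1 / 2 : ℝ) • (X₀ + X₁)) * ((1 / 2 : ℝ) • (X₁ - X₀)) *
      (res X₀ + res X₁) * ((1 / 2 : ℝ) • (X₁ - X₀)) * res ((1 / 2 : ℝ) • (X₀ + X₁))) ∧
    res X₀ - res X₁ = (res X₀ + res X₁) * ((1 / 2 : ℝ) • (X₁ - X₀)) *
      res ((1 / 2 : ℝ) • (X₀ + X₁)) ∧
    res X₀ - res X₁ = res ((1 / 2 : ℝ) • (X₀ + X₁)) * ((1 / 2 : ℝ) • (X₁ - X₀)) *
      (res X₀ + res X₁) := by
  have hm := half_psd h0 h1
  set Xb := (1 / 2 : ℝ) • (X₀ + X₁) with hXb
  set W := (1 / 2 : ℝ) • (X₁ - X₀) with hW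
  have eW0 : Xb - X₀ = W := by
    rw [hXb, hW]; module
  have eW1 : X₁ - Xb = W := by
    rw [hXb, hW]; module
  have q1 := mul_res hm
  have q2 := res_mul hm
  have p1 := mul_res h0
  have p2 := res_mul h0
  have r1 := mul_res h1
  have r2 := res_mul h1
  have a1 : res X₀ - res Xb = res X₀ * W * res Xb := by
    rw [← eW0]
    have : res X₀ * (Xb - X₀) * res Xb = res X₀ * (Xb * res Xb) - (res X₀ * X₀) * res Xb := by
      noncomm_ring
    rw [this, q1, p2]; noncomm_ring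
  have a2 : res X₀ - res Xb = res Xb * W * res X₀ := by
    rw [← eW0]
    have : res Xb * (Xb - X₀) * res X₀ = (res Xb * Xb) * res X₀ - res Xb * (X₀ * res X₀) := by
      noncomm_ring
    rw [this, q2, p1]; noncomm_ring
  have b1 : res Xb - res X₁ = res X₁ * W * res Xb := by
    rw [← eW1]
    have : res X₁ * (X₁ - Xb) * res Xb = (res X₁ * X₁) * res Xb - res X₁ * (Xb * res Xb) := by
      noncomm_ring
    rw [this, q1, r2]; noncomm_ring
  have b2 : res Xb - res X₁ = res Xb * W * res X₁ := by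
    rw [← eW1]
    have : res Xb * (X₁ - Xb) * res X₁ = res Xb * (X₁ * res X₁) - (res Xb * Xb) * res X₁ := by
      noncomm_ring
    rw [this, q2, r1]; noncomm_ring
  have c1 : res X₀ - res X₁ = (res X₀ + res X₁) * W * res Xb := by
    have : res X₀ - res X₁ = (res X₀ - res Xb) + (res Xb - res X₁) := by noncomm_ring
    rw [this, a1, b1]; noncomm_ring
  have c2 : res X₀ - res X₁ = res Xb * W * (res X₀ + res X₁) := by
    have : res X₀ - res X₁ = (res X₀ - res Xb) + (res Xb - res X₁) := by noncomm_ring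
    rw [this, a2, b2]; noncomm_ring
  refine ⟨?_, c1, c2⟩
  have d1 : (res X₀ - res Xb) - (res Xb - res X₁) = res Xb * W * (res X₀ - res X₁) := by
    rw [a2, b2]; noncomm_ring
  have d2 : res Xb * W * (res X₀ - res X₁)
      = res Xb * W * (res X₀ + res X₁) * W * res Xb := by
    rw [c1]; noncomm_ring
  rw [← d2, ← d1, delt, phi, phi, phi]
  module

theorem delt_psd (h0 : X₀.PosSemidef) (h1 : X₁.PosSemidef) : (delt X₀ X₁).PosSemidef := by
  have hm := half_psd h0 h1
  rw [(mean_identities h0 h1).1]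
  refine PosSemidef.smul ?_ (by norm_num)
  have hW : ((1 / 2 : ℝ) • (X₁ - X₀))ᵀ = (1 / 2 : ℝ) • (X₁ - X₀) := by
    rw [transpose_smul, transpose_sub, psd_isSymm h0, psd_isSymm h1]
  have := psd_conj_symm (psd_conj_symm ((res_psd h0).add (res_psd h1)) hW) (res_symm hm)
  convert this using 1
  noncomm_ring

theorem delt_sub_sq_psd (h0 : X₀.PosSemidef) (h1 : X₁.PosSemidef) :
    (delt X₀ X₁ - hdiff X₀ X₁ * hdiff X₀ X₁).PosSemidef := by
  have hm := half_psd h0 h1
  obtain ⟨i1, i2, i3⟩ := mean_identities h0 h1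
  have hW : ((1 / 2 : ℝ) • (X₁ - X₀))ᵀ = (1 / 2 : ℝ) • (X₁ - X₀) := by
    rw [transpose_smul, transpose_sub, psd_isSymm h0, psd_isSymm h1]
  have e1 : hdiff X₀ X₁ * hdiff X₀ X₁ = (1 / 4 : ℝ) • ((res X₀ - res X₁) * (res X₀ - res X₁)) := by
    rw [hdiff, phi, phi, Matrix.smul_mul, Matrix.mul_smul, smul_smul]
    norm_num
    noncomm_ring
  have e2 : (res X₀ - res X₁) * (res X₀ - res X₁)
      = res ((1 / 2 : ℝ) • (X₀ + X₁)) * ((1 / 2 : ℝ) • (X₁ - X₀)) *
      ((res X₀ + res X₁) * (res X₀ + res X₁)) * ((1 / 2 : ℝ) • (X₁ - X₀)) *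
        res ((1 / 2 : ℝ) • (X₀ + X₁)) := by
    conv_lhs =>
      congr
      · rw [i3]
      · rw [i2]
    noncomm_ring
  have e3 : delt X₀ X₁ - hdiff X₀ X₁ * hdiff X₀ X₁ = (1 / 4 : ℝ) •
      (res ((1 / 2 : ℝ) • (X₀ + X₁)) * (((1 / 2 : ℝ) • (X₁ - X₀)) *
      ((2 : ℝ) • (res X₀ - res X₀ * res X₀) + (2 : ℝ) • (res X₁ - res X₁ * res X₁)
        + (res X₀ - res X₁) * (res X₀ - res X₁)) *
        ((1 / 2 : ℝ) • (X₁ - X₀))) * res ((1 / 2 : ℝ) • (X₀ + X₁))) := by
    have e4 : ((2 : ℝ) • (res X₀ - res X₀ * res X₀) + (2 : ℝ) • (res X₁ - res X₁ * res X₁)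
        + (res X₀ - res X₁) * (res X₀ - res X₁))
        = (2 : ℝ) • (res X₀ + res X₁) - (res X₀ + res X₁) * (res X₀ + res X₁) := by
      simp only [two_smul]
      noncomm_ring
    rw [e4, e1, e2, i1]
    generalize res ((1 / 2 : ℝ) • (X₀ + X₁)) = Q
    generalize (1 / 2 : ℝ) • (X₁ - X₀) = W
    generalize res X₀ + res X₁ = S
    simp only [Matrix.mul_sub, Matrix.sub_mul, Matrix.mul_smul, Matrix.smul_mul, smul_sub,
      smul_smul, Matrix.mul_assoc]
    norm_num
  rw [e3]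
  refine PosSemidef.smul (psd_conj_symm (psd_conj_symm ?_ hW) (res_symm hm)) (by norm_num)
  refine (((res_sub_sq_psd h0).smul (by norm_num)).add
    ((res_sub_sq_psd h1).smul (by norm_num))).add (psd_sq ?_)
  rw [transpose_sub, res_symm h0, res_symm h1]

/-- `x`-split inequality for the log-determinant -/
theorem ld_mean (h0 : X₀.PosSemidef) (h1 : X₁.PosSemidef) :
    (delt X₀ X₁).trace + ld X₀ + ld X₁ ≤ 2 * ld ((1 / 2 : ℝ) • (X₀ + X₁)) := by
  have hm := half_psd h0 h1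
  set Xb := (1 / 2 : ℝ) • (X₀ + X₁) with hXb
  set C := (1 / 2 : ℝ) • (res X₀ + res X₁) with hC
  have hCpd : C.PosDef := ((res_posDef h0).add (res_posDef h1)).smul (by norm_num)
  have hC1 : (1 - C).PosSemidef := by
    have : 1 - C = (1 / 2 : ℝ) • ((1 - res X₀) + (1 - res X₁)) := by
      rw [hC]; module
    rw [this]
    exact ((one_sub_res_psd h0).add (one_sub_res_psd h1)).smul (by norm_num)
  have hCe : C = res X₀ * (1 + Xb) * res X₁ := by
    have e1 : (1 : Matrix n n ℝ) + Xb = (1 / 2 : ℝ) • ((1 + X₀) + (1 + X₁)) := by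
      rw [hXb]; module
    rw [e1, Matrix.mul_smul, Matrix.smul_mul, Matrix.mul_add, res_mul_one_add h0, Matrix.add_mul,
      Matrix.mul_assoc (res X₀), one_add_mul_res h1, Matrix.one_mul, Matrix.mul_one, hC, add_comm]
  have hdelt : delt X₀ X₁ = C - res Xb := by
    rw [delt, phi, phi, phi, hC, ← hXb]; module
  have hdpsd := delt_psd h0 h1
  rw [hdelt] at hdpsd
  -- C⁻¹ - 1 is PSD
  have hCu : IsUnit C.det := hCpd.det_pos.ne'.isUnit
  have i1 : C * C⁻¹ = 1 := Matrix.mul_nonsing_inv _ hCu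
  have i2 : C⁻¹ * C = 1 := Matrix.nonsing_inv_mul _ hCu
  have hCs : Cᵀ = C := psd_isSymm hCpd.posSemidef
  have hCinv : (C⁻¹ - 1).PosSemidef := by
    have e : C⁻¹ - 1 = (1 - C) + (1 - C) * C⁻¹ * (1 - C) := by
      have : (1 - C) * C⁻¹ * (1 - C) = C⁻¹ - C⁻¹ * C - C * C⁻¹ + C * C⁻¹ * C := by noncomm_ring
      rw [this, i1, i2]; noncomm_ring
    rw [e]
    exact hC1.add (psd_conj_symm hCpd.inv.posSemidef (psd_isSymm hC1))
  have hmain := det_mul_le_exp hCpd.inv.posSemidef (res_psd hm)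
  have htr : (C⁻¹ * res Xb).trace - (Fintype.card n : ℝ) ≤ - (C - res Xb).trace := by
    have e1 : (C⁻¹ * res Xb) = 1 - C⁻¹ * (C - res Xb) := by
      rw [Matrix.mul_sub, i2]; noncomm_ring
    have e2 : (1 * (C - res Xb)).trace ≤ (C⁻¹ * (C - res Xb)).trace :=
      trace_mul_le_left hdpsd hCinv
    rw [Matrix.one_mul] at e2
    rw [e1, trace_sub, trace_one]
    linarith
  have hpos1 : 0 < (C⁻¹).det := hCpd.inv.det_pos
  have hpos2 : 0 < (res Xb).det := (res_posDef hm).det_pos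
  have hlog := Real.log_le_log (mul_pos hpos1 hpos2) hmain
  rw [Real.log_exp, Real.log_mul hpos1.ne' hpos2.ne', log_det_res hm] at hlog
  have hdC : Real.log C.det = - ld X₀ + ld Xb - ld X₁ := by
    rw [hCe, det_mul, det_mul, Real.log_mul, Real.log_mul, log_det_res h0, log_det_res h1]
    · rw [show Real.log (1 + Xb).det = ld Xb from rfl]; ring
    · exact (res_posDef h0).det_pos.ne'
    · exact (det_pos_one_add hm).ne'
    · exact (mul_pos (res_posDef h0).det_pos (det_pos_one_add hm)).ne'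
    · exact (res_posDef h1).det_pos.ne'
  have hdCi : Real.log (C⁻¹).det = - Real.log C.det := by
    have := congrArg det i2
    rw [det_mul, det_one] at this
    rw [eq_inv_of_mul_eq_one_left this, Real.log_inv]
  rw [hdCi, hdC] at hlog
  rw [hdelt]
  linarith

end mean

/-- `x`-split inequality for the mixed energy -/
theorem xsplit {X₀ X₁ Y₀ Y₁ : Matrix n n ℝ} (h0 : X₀.PosSemidef) (h1 : X₁.PosSemidef)
    (k0 : Y₀.PosSemidef) (k1 : Y₁.PosSemidef) :
    (phi ((1 / 2 : ℝ) • (X₀ + X₁)) * phi ((1 / 2 : ℝ) • (Y₀ + Y₁))).trace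
      - (3 / 2) * ((delt X₀ X₁).trace + (delt Y₀ Y₁).trace)
    ≤ (1 / 2) * ((phi X₀ * phi Y₀).trace + (phi X₁ * phi Y₁).trace) := by
  have hmX := half_psd h0 h1
  have hmY := half_psd k0 k1
  have dX := delt_psd h0 h1
  have dY := delt_psd k0 k1
  have sX : (hdiff X₀ X₁ * hdiff X₀ X₁).trace ≤ (delt X₀ X₁).trace := by
    have := (delt_sub_sq_psd h0 h1).trace_nonneg
    rw [trace_sub] at this; linarith
  have sY : (hdiff Y₀ Y₁ * hdiff Y₀ Y₁).trace ≤ (delt Y₀ Y₁).trace := by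
    have := (delt_sub_sq_psd k0 k1).trace_nonneg
    rw [trace_sub] at this; linarith
  have hcross : -(1 / 2) * (hdiff X₀ X₁ * hdiff X₀ X₁).trace
      - (1 / 2) * (hdiff Y₀ Y₁ * hdiff Y₀ Y₁).trace ≤ (hdiff X₀ X₁ * hdiff Y₀ Y₁).trace := by
    have h := trace_sq_nonneg (B := hdiff X₀ X₁ + hdiff Y₀ Y₁) (by
      simp only [hdiff, transpose_add, transpose_smul, transpose_sub, phi_symm h0, phi_symm h1,
        phi_symm k0, phi_symm k1])
    rw [Matrix.add_mul, Matrix.mul_add, Matrix.mul_add, trace_add, trace_add, trace_add,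
      trace_mul_comm (hdiff Y₀ Y₁) (hdiff X₀ X₁)] at h
    linarith
  have t1 : (delt X₀ X₁ * phi ((1 / 2 : ℝ) • (Y₀ + Y₁))).trace ≤ (delt X₀ X₁).trace := by
    have := trace_mul_le_right dX (one_sub_phi_psd hmY)
    rwa [Matrix.mul_one] at this
  have t2 : (((1 / 2 : ℝ) • (phi X₀ + phi X₁)) * delt Y₀ Y₁).trace ≤ (delt Y₀ Y₁).trace := by
    have hp : (1 - (1 / 2 : ℝ) • (phi X₀ + phi X₁)).PosSemidef := by
      have : 1 - (1 / 2 : ℝ) • (phi X₀ + phi X₁) = (1 / 2 : ℝ) • ((1 - phi X₀) + (1 - phi X₁)) := by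
        module
      rw [this]
      exact ((one_sub_phi_psd h0).add (one_sub_phi_psd h1)).smul (by norm_num)
    have := trace_mul_le_left dY hp
    rwa [Matrix.one_mul] at this
  have key : (1 / 2 : ℝ) • (phi X₀ * phi Y₀ + phi X₁ * phi Y₁)
      = phi ((1 / 2 : ℝ) • (X₀ + X₁)) * phi ((1 / 2 : ℝ) • (Y₀ + Y₁))
        - delt X₀ X₁ * phi ((1 / 2 : ℝ) • (Y₀ + Y₁))
        - ((1 / 2 : ℝ) • (phi X₀ + phi X₁)) * delt Y₀ Y₁
        + hdiff X₀ X₁ * hdiff Y₀ Y₁ := by
    rw [delt, delt, hdiff, hdiff]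
    simp only [Matrix.mul_sub, Matrix.sub_mul, Matrix.mul_add, Matrix.add_mul, Matrix.mul_smul,
      Matrix.smul_mul, smul_sub, smul_add, smul_smul]
    module
  have key2 := congrArg trace key
  rw [trace_smul, trace_add, trace_add, trace_sub, trace_sub, smul_eq_mul] at key2
  linarith

end Vale.Agent.P075
end
end

section

section

set_option linter.unusedSectionVars false
set_option linter.unusedVariables false

namespace Vale.Agent.P075

open Matrix

variable {n m : Type*} [Fintype n] [DecidableEq n] [Fintype m] [DecidableEq m]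

section refl

variable {X Y r : Matrix n n ℝ}

theorem refl_psd (hX : X.PosSemidef) (hr : rᵀ = r) : (r * X * r).PosSemidef :=
  psd_conj_symm hX hr

theorem res_refl (hX : X.PosSemidef) (hr : rᵀ = r) (hr2 : r * r = 1) :
    res (r * X * r) = r * res X * r := by
  have hX' := refl_psd hX hr
  have h1 : res (r * X * r) * (1 + r * X * r) = 1 := res_mul_one_add hX'
  have h2 : (1 + r * X * r) * (r * res X * r) = 1 := by
    have e : (1 + r * X * r) * (r * res X * r)
        = r * res X * r + r * X * (r * r) * res X * r := by noncomm_ring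
    have e2 : r * X * 1 * res X * r = r * (X * res X) * r := by noncomm_ring
    rw [e, hr2, e2, mul_res hX]
    have e3 : r * res X * r + r * (1 - res X) * r = r * r := by noncomm_ring
    rw [e3, hr2]
  calc res (r * X * r) = res (r * X * r) * ((1 + r * X * r) * (r * res X * r)) := by
        rw [h2, Matrix.mul_one]
    _ = (res (r * X * r) * (1 + r * X * r)) * (r * res X * r) :=
        (Matrix.mul_assoc _ _ _).symm
    _ = r * res X * r := by rw [h1, Matrix.one_mul]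

theorem phi_refl (hX : X.PosSemidef) (hr : rᵀ = r) (hr2 : r * r = 1) :
    phi (r * X * r) = r * phi X * r := by
  rw [phi, res_refl hX hr hr2, phi]
  have e3 : r * (1 - res X) * r = r * r - r * res X * r := by noncomm_ring
  rw [e3, hr2]

/-- the deficiency `a + a' - phi (X + X')` -/
noncomputable def Del (X X' : Matrix n n ℝ) : Matrix n n ℝ :=
  phi X + phi X' - phi (X + X')

theorem Del_eq (X X' : Matrix n n ℝ) : Del X X' = kap (phi X) (phi X') - Gam X X' := by
  rw [Del, phi_add_eq, kap]; noncomm_ring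

theorem Del_symm {X X' : Matrix n n ℝ} (hX : X.PosSemidef) (hX' : X'.PosSemidef) :
    (Del X X')ᵀ = Del X X' := by
  rw [Del, transpose_sub, transpose_add, phi_symm hX, phi_symm hX', phi_symm (hX.add hX')]

theorem refl_refl (hr2 : r * r = 1) (A : Matrix n n ℝ) : r * (r * A * r) * r = A := by
  have : r * (r * A * r) * r = (r * r) * A * (r * r) := by noncomm_ring
  rw [this, hr2, Matrix.one_mul, Matrix.mul_one]

theorem Del_refl (hX : X.PosSemidef) (hr : rᵀ = r) (hr2 : r * r = 1) :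
    r * Del X (r * X * r) * r = Del X (r * X * r) := by
  have hX' := refl_psd hX hr
  have hZ := hX.add hX'
  have e1 : r * phi (X + r * X * r) * r = phi (X + r * X * r) := by
    rw [← phi_refl hZ hr hr2]
    congr 1
    have : r * (X + r * X * r) * r = r * X * r + r * (r * X * r) * r := by noncomm_ring
    rw [this, refl_refl hr2, add_comm]
  have e2 : r * phi (r * X * r) * r = phi X := by
    rw [phi_refl hX hr hr2, refl_refl hr2]
  have e3 : r * phi X * r = phi (r * X * r) := (phi_refl hX hr hr2).symm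
  have : r * Del X (r * X * r) * r = r * phi X * r + r * phi (r * X * r) * r
      - r * phi (X + r * X * r) * r := by rw [Del]; noncomm_ring
  rw [this, e1, e2, e3, Del, add_comm (phi (r * X * r))]

theorem trace_Del_sq_le (hX : X.PosSemidef) {X' : Matrix n n ℝ} (hX' : X'.PosSemidef) :
    (Del X X' * Del X X').trace ≤ 12 * (phi X * phi X').trace := by
  have h1 := trace_Gam_sq_le hX hX'
  have h2 := trace_kap_sq_le (phi_psd hX) (one_sub_phi_psd hX) (phi_sub_sq_psd hX)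
    (phi_psd hX') (one_sub_phi_psd hX') (phi_sub_sq_psd hX')
  have hks : (kap (phi X) (phi X'))ᵀ = kap (phi X) (phi X') := by
    rw [kap, transpose_add, transpose_mul, transpose_mul, phi_symm hX, phi_symm hX', add_comm]
  have h3 := trace_sq_nonneg (B := kap (phi X) (phi X') + Gam X X')
    (by rw [transpose_add, hks, Gam_symm hX hX'])
  have e1 : (kap (phi X) (phi X') + Gam X X') * (kap (phi X) (phi X') + Gam X X')
      + Del X X' * Del X X' = 2 * (kap (phi X) (phi X') * kap (phi X) (phi X'))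
        + 2 * (Gam X X' * Gam X X') := by
    rw [Del_eq]; noncomm_ring
  have e2 := congrArg trace e1
  have t2 : ∀ A : Matrix n n ℝ, ((2 : Matrix n n ℝ) * A).trace = 2 * A.trace := by
    intro A
    rw [two_mul, trace_add, two_mul]
  rw [trace_add, trace_add, t2, t2] at e2
  linarith

/-- The `y`-split inequality. -/
theorem ysplit (hX : X.PosSemidef) (hY : Y.PosSemidef) (hr : rᵀ = r) (hr2 : r * r = 1) :
    (phi X * phi Y).trace + (1 / 2) * (phi X * (r * phi Y * r)).trace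
      - 7 * ((phi X * (r * phi X * r)).trace + (phi Y * (r * phi Y * r)).trace)
    ≤ (1 / 2) * (phi (X + r * X * r) * phi (Y + r * Y * r)).trace := by
  have hX' := refl_psd hX hr
  have hY' := refl_psd hY hr
  have ea : phi (r * X * r) = r * phi X * r := phi_refl hX hr hr2
  have eb : phi (r * Y * r) = r * phi Y * r := phi_refl hY hr hr2
  have hDX := Del_refl hX hr hr2
  have hDY := Del_refl hY hr hr2
  have hDXs := Del_symm hX hX'
  have hDYs := Del_symm hY hY'
  have sDX := trace_Del_sq_le hX hX'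
  have sDY := trace_Del_sq_le hY hY'
  have kX : (Del X (r * X * r) * phi Y).trace ≤
      4 * (phi X * phi (r * X * r)).trace + (1 / 4) * (phi (r * X * r) * phi Y).trace := by
    have k1 := trace_kap_mul_le (phi_psd hX) (one_sub_phi_psd hX) (phi_psd hX') (phi_psd hY)
      (phi_sub_sq_psd hY)
    have k2 := trace_mul_nonneg (Gam_psd hX hX') (phi_psd hY)
    rw [Del_eq, Matrix.sub_mul, trace_sub]
    linarith
  have kY : (Del Y (r * Y * r) * phi X).trace ≤
      4 * (phi Y * phi (r * Y * r)).trace + (1 / 4) * (phi (r * Y * r) * phi X).trace := by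
    have k1 := trace_kap_mul_le (phi_psd hY) (one_sub_phi_psd hY) (phi_psd hY') (phi_psd hX)
      (phi_sub_sq_psd hX)
    have k2 := trace_mul_nonneg (Gam_psd hY hY') (phi_psd hX)
    rw [Del_eq, Matrix.sub_mul, trace_sub]
    linarith
  have hS : phi (X + r * X * r) = phi X + phi (r * X * r) - Del X (r * X * r) := by
    rw [Del]; noncomm_ring
  have hR : phi (Y + r * Y * r) = phi Y + phi (r * Y * r) - Del Y (r * Y * r) := by
    rw [Del]; noncomm_ring
  have hcross : -(1 / 2) * (Del X (r * X * r) * Del X (r * X * r)).trace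
      - (1 / 2) * (Del Y (r * Y * r) * Del Y (r * Y * r)).trace
      ≤ (Del X (r * X * r) * Del Y (r * Y * r)).trace := by
    have h := trace_sq_nonneg (B := Del X (r * X * r) + Del Y (r * Y * r))
      (by rw [transpose_add, hDXs, hDYs])
    rw [Matrix.add_mul, Matrix.mul_add, Matrix.mul_add, trace_add, trace_add, trace_add,
      trace_mul_comm (Del Y (r * Y * r)) (Del X (r * X * r))] at h
    linarith
  rw [hS, hR]
  rw [ea, eb] at *
  generalize Del X (r * X * r) = D at *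
  generalize Del Y (r * Y * r) = E at *
  generalize phi X = a at *
  generalize phi Y = b at *
  have exp1 : (a + r * a * r - D) * (b + r * b * r - E)
      = a * b + a * (r * b * r) + r * a * r * b + r * a * r * (r * b * r)
        - D * b - D * (r * b * r) - a * E - r * a * r * E + D * E := by noncomm_ring
  have c1 : (r * a * r * (r * b * r)).trace = (a * b).trace := by
    rw [show r * a * r * (r * b * r) = r * (a * (r * r) * b * r) by noncomm_ring, hr2,
      trace_mul_comm, show a * 1 * b * r * r = a * b * (r * r) by noncomm_ring, hr2,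
      Matrix.mul_one]
  have c2 : (r * a * r * b).trace = (a * (r * b * r)).trace := by
    rw [show r * a * r * b = r * (a * r * b) by noncomm_ring, trace_mul_comm]
    congr 1; noncomm_ring
  have c3 : (D * (r * b * r)).trace = (D * b).trace := by
    conv_rhs => rw [← hDX]
    rw [show r * D * r * b = r * (D * r * b) by noncomm_ring, trace_mul_comm r]
    congr 1; noncomm_ring
  have c4 : (r * a * r * E).trace = (a * E).trace := by
    rw [show r * a * r * E = r * (a * r * E) by noncomm_ring, trace_mul_comm r,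
      show a * r * E * r = a * (r * E * r) by noncomm_ring, hDY]
  have c5 : (E * a).trace = (a * E).trace := trace_mul_comm _ _
  have c6 : (r * b * r * a).trace = (a * (r * b * r)).trace := trace_mul_comm _ _
  rw [exp1]
  simp only [trace_add, trace_sub]
  rw [c1, c2, c3, c4]
  rw [c2] at kX
  rw [c5, c6] at kY
  linarith

end refl

end Vale.Agent.P075
end
end

section

section

set_option linter.unusedSectionVars false
set_option linter.unusedVariables false

namespace Vale.Agent.P075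

open Matrix

variable {m : Type*} [Fintype m] [DecidableEq m]

/-- the Rademacher (Haar sign) matrix on a doubled index set -/
def rad (m : Type*) [DecidableEq m] : Matrix (m ⊕ m) (m ⊕ m) ℝ := fromBlocks 1 0 0 (-1)

theorem rad_symm : (rad m)ᵀ = rad m := by
  simp [rad, fromBlocks_transpose]

theorem rad_sq : rad m * rad m = 1 := by
  simp [rad, fromBlocks_multiply]

/-- block diagonal matrix -/
def bd (A D : Matrix m m ℝ) : Matrix (m ⊕ m) (m ⊕ m) ℝ := fromBlocks A 0 0 D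

theorem res_bd {A D : Matrix m m ℝ} (hA : A.PosSemidef) (hD : D.PosSemidef) :
    res (bd A D) = bd (res A) (res D) := by
  rw [res]
  apply Matrix.inv_eq_left_inv
  rw [bd, bd, ← fromBlocks_one, fromBlocks_add, fromBlocks_multiply]
  simp only [Matrix.zero_mul, Matrix.mul_zero, add_zero, zero_add,
    res_mul_one_add hA, res_mul_one_add hD]

theorem phi_bd {A D : Matrix m m ℝ} (hA : A.PosSemidef) (hD : D.PosSemidef) :
    phi (bd A D) = bd (phi A) (phi D) := by
  rw [phi, res_bd hA hD, bd, bd, phi, phi, ← fromBlocks_one]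
  ext i j
  rcases i with i | i <;> rcases j with j | j <;> simp [fromBlocks]

theorem ld_bd {A D : Matrix m m ℝ} (hA : A.PosSemidef) (hD : D.PosSemidef) :
    ld (bd A D) = ld A + ld D := by
  rw [ld, bd, ← fromBlocks_one, fromBlocks_add]
  simp only [add_zero]
  rw [det_fromBlocks_zero₂₁, Real.log_mul (det_pos_one_add hA).ne' (det_pos_one_add hD).ne', ld, ld]

theorem bd_mul (A D A' D' : Matrix m m ℝ) : bd A D * bd A' D' = bd (A * A') (D * D') := by
  simp [bd, fromBlocks_multiply]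

theorem trace_bd (A D : Matrix m m ℝ) : (bd A D).trace = A.trace + D.trace := by
  simp [bd, Matrix.trace, Fintype.sum_sum_type]

/-- the energy `tr X - log det (1+X)` -/
noncomputable def GX {n : Type*} [Fintype n] [DecidableEq n] (X : Matrix n n ℝ) : ℝ :=
  X.trace - ld X

theorem GX_split {X : Matrix (m ⊕ m) (m ⊕ m) ℝ} {X00 X01 X10 X11 : Matrix m m ℝ}
    (hX : X.PosSemidef) (h00 : X00.PosSemidef) (h01 : X01.PosSemidef)
    (h10 : X10.PosSemidef) (h11 : X11.PosSemidef)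
    (hs : X + rad m * X * rad m = bd ((1 / 2 : ℝ) • (X00 + X10)) ((1 / 2 : ℝ) • (X01 + X11))) :
    GX X + (1 / 2) * (phi X * (rad m * phi X * rad m)).trace
      + (1 / 4) * ((delt X00 X10).trace + (delt X01 X11).trace)
    ≤ (1 / 4) * (GX X00 + GX X10 + GX X01 + GX X11) := by
  have hX' := refl_psd hX (rad_symm (m := m))
  have ea : phi (rad m * X * rad m) = rad m * phi X * rad m := phi_refl hX rad_symm rad_sq
  have h1 := ld_add_le hX hX'
  have hldr : ld (rad m * X * rad m) = ld X := by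
    rw [ld, ld]
    congr 1
    have : (1 : Matrix (m ⊕ m) (m ⊕ m) ℝ) + rad m * X * rad m = rad m * (1 + X) * rad m := by
      rw [Matrix.mul_add, Matrix.add_mul, Matrix.mul_one, rad_sq]
    rw [this, det_mul, det_mul]
    have hd : (rad m).det * (rad m).det = 1 := by
      rw [← det_mul, rad_sq, det_one]
    calc (rad m).det * (1 + X).det * (rad m).det
        = ((rad m).det * (rad m).det) * (1 + X).det := by ring
      _ = (1 + X).det := by rw [hd, one_mul]
  have htr : (rad m * X * rad m).trace = X.trace := by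
    rw [Matrix.mul_assoc, trace_mul_comm, Matrix.mul_assoc, rad_sq, Matrix.mul_one]
  have htr2 : 2 * X.trace = (1 / 2) * (X00.trace + X10.trace + X01.trace + X11.trace) := by
    have := congrArg trace hs
    rw [trace_add, htr, trace_bd, trace_smul, trace_smul, trace_add, trace_add, smul_eq_mul,
      smul_eq_mul] at this
    linarith
  rw [hldr, ea, hs, ld_bd (half_psd h00 h10) (half_psd h01 h11)] at h1
  have h2 := ld_mean h00 h10
  have h3 := ld_mean h01 h11
  simp only [GX]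
  linarith

theorem delt_comm (X₀ X₁ : Matrix m m ℝ) : delt X₀ X₁ = delt X₁ X₀ := by
  rw [delt, delt, add_comm X₀, add_comm (phi X₀)]

/-- One step of the Bellman induction, abstract form. -/
theorem one_step_abs {X Y : Matrix (m ⊕ m) (m ⊕ m) ℝ}
    {X00 X01 X10 X11 Y00 Y01 Y10 Y11 : Matrix m m ℝ}
    (hX : X.PosSemidef) (hX00 : X00.PosSemidef) (hX01 : X01.PosSemidef)
    (hX10 : X10.PosSemidef) (hX11 : X11.PosSemidef)
    (hsX : X + rad m * X * rad m = bd ((1 / 2 : ℝ) • (X00 + X10)) ((1 / 2 : ℝ) • (X01 + X11)))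
    (hY : Y.PosSemidef) (hY00 : Y00.PosSemidef) (hY01 : Y01.PosSemidef)
    (hY10 : Y10.PosSemidef) (hY11 : Y11.PosSemidef)
    (hsY : Y + rad m * Y * rad m = bd ((1 / 2 : ℝ) • (Y00 + Y01)) ((1 / 2 : ℝ) • (Y10 + Y11))) :
    (1 / 2) * (phi X * (rad m * phi Y * rad m)).trace
    ≤ ((1 / 4) * ((phi X00 * phi Y00).trace + (phi X10 * phi Y01).trace
          + (phi X01 * phi Y11).trace + (phi X11 * phi Y10).trace) - (phi X * phi Y).trace)
      + 14 * ((1 / 4) * (GX X00 + GX X10 + GX X01 + GX X11) - GX X)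
      + 14 * ((1 / 4) * (GX Y00 + GX Y01 + GX Y10 + GX Y11) - GX Y) := by
  have h1 := ysplit hX hY (rad_symm (m := m)) (rad_sq (m := m))
  have gX := GX_split hX hX00 hX01 hX10 hX11 hsX
  have gY := GX_split hY hY00 hY10 hY01 hY11 hsY
  have x0 := xsplit hX00 hX10 hY00 hY01
  have x1 := xsplit hX01 hX11 hY11 hY10
  rw [hsX, hsY, phi_bd (half_psd hX00 hX10) (half_psd hX01 hX11),
    phi_bd (half_psd hY00 hY01) (half_psd hY10 hY11), bd_mul, trace_bd] at h1
  rw [add_comm Y11 Y10, delt_comm Y11 Y10] at x1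
  have p1 := (delt_psd hX00 hX10).trace_nonneg
  have p2 := (delt_psd hX01 hX11).trace_nonneg
  have p3 := (delt_psd hY00 hY01).trace_nonneg
  have p4 := (delt_psd hY10 hY11).trace_nonneg
  linarith

section blocks

/-- embedding of the half with label `a` -/
def inj (a : Bool) (i : m) : m ⊕ m := if a then Sum.inr i else Sum.inl i

/-- the block of `F` with labels `a` (rows) and `b` (columns) -/
def blk (F : Matrix (m ⊕ m) (m ⊕ m) ℝ) (a b : Bool) : Matrix m m ℝ :=
  F.submatrix (inj a) (inj b)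

theorem fromBlocks_blk (F : Matrix (m ⊕ m) (m ⊕ m) ℝ) :
    fromBlocks (blk F false false) (blk F false true) (blk F true false) (blk F true true) = F := by
  ext i j
  rcases i with i | i <;> rcases j with j | j <;> simp [fromBlocks, blk, inj]

/-- column Gram matrix -/
def gramC {n : Type*} [Fintype n] (μ : ℝ) (F : Matrix n n ℝ) : Matrix n n ℝ := μ • (Fᵀ * F)

/-- row Gram matrix -/
def gramR {n : Type*} [Fintype n] (μ : ℝ) (F : Matrix n n ℝ) : Matrix n n ℝ := μ • (F * Fᵀ)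

theorem gramC_psd {n : Type*} [Fintype n] {μ : ℝ} (hμ : 0 ≤ μ) (F : Matrix n n ℝ) :
    (gramC μ F).PosSemidef := (psd_transpose_mul F).smul hμ

theorem gramR_psd {n : Type*} [Fintype n] {μ : ℝ} (hμ : 0 ≤ μ) (F : Matrix n n ℝ) :
    (gramR μ F).PosSemidef := (psd_mul_transpose F).smul hμ

/-- the energy of a matrix -/
noncomputable def G {n : Type*} [Fintype n] [DecidableEq n] (μ : ℝ) (F : Matrix n n ℝ) : ℝ :=
  GX (gramC μ F)

theorem G_eq_row {n : Type*} [Fintype n] [DecidableEq n] (μ : ℝ) (F : Matrix n n ℝ) :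
    G μ F = GX (gramR μ F) := by
  have h1 : (gramC μ F).trace = (gramR μ F).trace := by
    rw [gramC, gramR, trace_smul, trace_smul, trace_mul_comm]
  have h2 : (1 + gramC μ F).det = (1 + gramR μ F).det := by
    rw [gramC, gramR, ← Matrix.mul_smul, ← Matrix.smul_mul]
    exact det_one_add_mul_comm _ _
  rw [G, GX, GX, ld, ld, h1, h2]

/-- mixed energy -/
noncomputable def Em {n : Type*} [Fintype n] [DecidableEq n] (μ : ℝ) (F H : Matrix n n ℝ) : ℝ :=
  (phi (gramC μ F) * phi (gramR μ H)).trace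

/-- main term -/
noncomputable def Mn (μ : ℝ) (F H : Matrix (m ⊕ m) (m ⊕ m) ℝ) : ℝ :=
  (phi (gramC μ F) * (rad m * phi (gramR μ H) * rad m)).trace

theorem gramC_blk (μ : ℝ) (F : Matrix (m ⊕ m) (m ⊕ m) ℝ) :
    gramC μ F + rad m * gramC μ F * rad m
      = bd ((1 / 2 : ℝ) • (gramC (4 * μ) (blk F false false) + gramC (4 * μ) (blk F true false)))
        ((1 / 2 : ℝ) • (gramC (4 * μ) (blk F false true) + gramC (4 * μ) (blk F true true))) := by
  conv_lhs => rw [← fromBlocks_blk F]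
  simp only [gramC, rad, bd, fromBlocks_transpose, fromBlocks_multiply, fromBlocks_smul,
    fromBlocks_add, Matrix.one_mul, Matrix.mul_one, Matrix.zero_mul, Matrix.mul_zero, add_zero,
    zero_add, Matrix.mul_neg, Matrix.neg_mul, neg_neg]
  congr 1
  · module
  · simp
  · simp
  · module

theorem gramR_blk (μ : ℝ) (F : Matrix (m ⊕ m) (m ⊕ m) ℝ) :
    gramR μ F + rad m * gramR μ F * rad m
      = bd ((1 / 2 : ℝ) • (gramR (4 * μ) (blk F false false) + gramR (4 * μ) (blk F false true)))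
        ((1 / 2 : ℝ) • (gramR (4 * μ) (blk F true false) + gramR (4 * μ) (blk F true true))) := by
  conv_lhs => rw [← fromBlocks_blk F]
  simp only [gramR, rad, bd, fromBlocks_transpose, fromBlocks_multiply, fromBlocks_smul,
    fromBlocks_add, Matrix.one_mul, Matrix.mul_one, Matrix.zero_mul, Matrix.mul_zero, add_zero,
    zero_add, Matrix.mul_neg, Matrix.neg_mul, neg_neg]
  congr 1
  · module
  · simp
  · simp
  · module

/-- One step of the Bellman induction. -/
theorem one_step {μ : ℝ} (hμ : 0 ≤ μ) (F H : Matrix (m ⊕ m) (m ⊕ m) ℝ) :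
    (1 / 2) * Mn μ F H ≤
      ((1 / 4) * (∑ a : Bool, ∑ b : Bool, Em (4 * μ) (blk F a b) (blk H b (xor a b))) - Em μ F H)
      + 14 * ((1 / 4) * (∑ a : Bool, ∑ b : Bool, G (4 * μ) (blk F a b)) - G μ F)
      + 14 * ((1 / 4) * (∑ b : Bool, ∑ c : Bool, G (4 * μ) (blk H b c)) - G μ H) := by
  have h4 : 0 ≤ 4 * μ := by linarith
  have h := one_step_abs (gramC_psd hμ F) (gramC_psd h4 (blk F false false))
    (gramC_psd h4 (blk F false true)) (gramC_psd h4 (blk F true false))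
    (gramC_psd h4 (blk F true true)) (gramC_blk μ F)
    (gramR_psd hμ H) (gramR_psd h4 (blk H false false))
    (gramR_psd h4 (blk H false true)) (gramR_psd h4 (blk H true false))
    (gramR_psd h4 (blk H true true)) (gramR_blk μ H)
  simp only [G_eq_row _ H, G_eq_row _ (blk H _ _)]
  simp only [Fintype.sum_bool, Bool.xor_false, Bool.xor_true, Bool.not_true, Bool.not_false, Mn, Em, G]
  linarith

end blocks

end Vale.Agent.P075
end
end

section

section

set_option linter.unusedSectionVars false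
set_option linter.unusedVariables false

namespace Vale.Agent.P075

open Matrix

variable {n m : Type*} [Fintype n] [DecidableEq n] [Fintype m] [DecidableEq m]

/-- regularised matrix `F (1 + μ FᵀF)⁻¹` -/
noncomputable def reg (μ : ℝ) (F : Matrix n n ℝ) : Matrix n n ℝ := F * res (gramC μ F)

/-- the trilinear trace form with signs `r` -/
def T3 (r F₀ F₁ F₂ : Matrix n n ℝ) : ℝ := (r * F₀ * r * F₁ * r * F₂).trace

theorem T3_cyc (r F₀ F₁ F₂ : Matrix n n ℝ) : T3 r F₀ F₁ F₂ = T3 r F₁ F₂ F₀ := by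
  rw [T3, T3, show r * F₀ * r * F₁ * r * F₂ = (r * F₀) * (r * F₁ * r * F₂) by
    simp only [Matrix.mul_assoc], trace_mul_comm]
  congr 1
  simp only [Matrix.mul_assoc]

/-- main term for a general sign matrix -/
noncomputable def MnG (r : Matrix n n ℝ) (μ : ℝ) (F H : Matrix n n ℝ) : ℝ :=
  (phi (gramC μ F) * (r * phi (gramR μ H) * r)).trace

theorem Mn_eq (μ : ℝ) (F H : Matrix (m ⊕ m) (m ⊕ m) ℝ) : Mn μ F H = MnG (rad m) μ F H := rfl

/-- push-through identity -/
theorem push {μ : ℝ} (hμ : 0 ≤ μ) (F : Matrix n n ℝ) :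
    F * res (gramC μ F) = res (gramR μ F) * F := by
  have h1 := one_add_mul_res (gramC_psd hμ F)
  have h2 := res_mul_one_add (gramR_psd hμ F)
  have h3 : (1 + gramR μ F) * F = F * (1 + gramC μ F) := by
    simp only [gramR, gramC, Matrix.add_mul, Matrix.mul_add, Matrix.one_mul, Matrix.mul_one,
      Matrix.smul_mul, Matrix.mul_smul, Matrix.mul_assoc]
  calc F * res (gramC μ F) = (res (gramR μ F) * (1 + gramR μ F)) * F * res (gramC μ F) := by
        rw [h2, Matrix.one_mul]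
    _ = res (gramR μ F) * ((1 + gramR μ F) * F) * res (gramC μ F) := by
        simp only [Matrix.mul_assoc]
    _ = res (gramR μ F) * F * ((1 + gramC μ F) * res (gramC μ F)) := by
        rw [h3]; simp only [Matrix.mul_assoc]
    _ = res (gramR μ F) * F := by rw [h1, Matrix.mul_one]

theorem phi_gramR {μ : ℝ} (hμ : 0 ≤ μ) (F : Matrix n n ℝ) :
    phi (gramR μ F) = μ • (F * res (gramC μ F) * Fᵀ) := by
  rw [push hμ, ← res_mul_phi (gramR_psd hμ F)]
  conv_lhs => rw [gramR]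
  rw [Matrix.mul_smul, Matrix.mul_assoc]
  rfl

/-- `φ(2X) ≤ 2 φ(X)` -/
theorem phi_two {X : Matrix n n ℝ} (hX : X.PosSemidef) :
    ((2 : ℝ) • phi X - phi ((2 : ℝ) • X)).PosSemidef := by
  have h := delt_psd (hX.smul (α := ℝ) (show (0 : ℝ) ≤ 2 by norm_num)) (PosSemidef.zero (n := n))
  have h2 := h.smul (α := ℝ) (show (0 : ℝ) ≤ 2 by norm_num)
  have e0 : phi (0 : Matrix n n ℝ) = 0 := by simp [phi, res]
  have e1 : (1 / 2 : ℝ) • ((2 : ℝ) • X + 0) = X := by module
  rw [delt, e0, e1] at h2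
  convert h2 using 1
  module

theorem phi_four {X : Matrix n n ℝ} (hX : X.PosSemidef) :
    ((4 : ℝ) • phi X - phi ((4 : ℝ) • X)).PosSemidef := by
  have h1 := phi_two hX
  have h2 := phi_two (hX.smul (α := ℝ) (show (0 : ℝ) ≤ 2 by norm_num))
  have h3 := (h1.smul (α := ℝ) (show (0 : ℝ) ≤ 2 by norm_num)).add h2
  have e : (2 : ℝ) • (2 : ℝ) • X = (4 : ℝ) • X := by module
  rw [e] at h3
  convert h3 using 1
  module

/-- `H` is dominated by `F` at level `μ` -/
def Adm (μ : ℝ) (F H : Matrix n n ℝ) : Prop :=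
  (phi (gramC μ F) - gramC μ H).PosSemidef ∧ (phi (gramR μ F) - gramR μ H).PosSemidef

theorem gramC_mul {μ : ℝ} {F R : Matrix n n ℝ} (hR : Rᵀ = R) :
    gramC μ (F * R) = R * gramC μ F * R := by
  simp only [gramC, transpose_mul, hR, Matrix.smul_mul, Matrix.mul_smul, Matrix.mul_assoc]

theorem gramR_mul {μ : ℝ} {F R : Matrix n n ℝ} (hR : Rᵀ = R) :
    gramR μ (F * R) = μ • (F * (R * R) * Fᵀ) := by
  simp only [gramR, transpose_mul, hR, Matrix.mul_assoc]

theorem gramC_smul (c μ : ℝ) (F : Matrix n n ℝ) : gramC (c * μ) F = c • gramC μ F := by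
  rw [gramC, gramC, mul_smul]

theorem adm_one {μ : ℝ} (hμ : 0 ≤ μ) (F : Matrix n n ℝ) : Adm μ F (reg μ F) := by
  have hX := gramC_psd hμ F
  have hs := res_symm hX
  constructor
  · rw [reg, gramC_mul hs, ← res_sub_sq hX]
    have : phi (gramC μ F) - (res (gramC μ F) - res (gramC μ F) * res (gramC μ F))
        = phi (gramC μ F) * phi (gramC μ F) := by rw [phi]; noncomm_ring
    rw [this]; exact psd_sq (phi_symm hX)
  · rw [reg, gramR_mul hs, phi_gramR hμ, ← smul_sub]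
    refine PosSemidef.smul ?_ hμ
    have : F * res (gramC μ F) * Fᵀ - F * (res (gramC μ F) * res (gramC μ F)) * Fᵀ
        = F * (res (gramC μ F) - res (gramC μ F) * res (gramC μ F)) * Fᵀ := by
      rw [Matrix.mul_sub, Matrix.sub_mul]
    rw [this]
    exact psd_conj (res_sub_sq_psd hX) F

theorem adm_four {μ : ℝ} (hμ : 0 ≤ μ) (F : Matrix n n ℝ) : Adm μ F (reg (4 * μ) F) := by
  have hX := gramC_psd hμ F
  have h4 : 0 ≤ 4 * μ := by linarith
  have hX4 := gramC_psd h4 F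
  have hs4 := res_symm hX4
  constructor
  · rw [reg, gramC_mul hs4]
    have e1 : res (gramC (4 * μ) F) * gramC μ F * res (gramC (4 * μ) F)
        = (1 / 4 : ℝ) • (res (gramC (4 * μ) F) - res (gramC (4 * μ) F) * res (gramC (4 * μ) F)) := by
      rw [res_sub_sq hX4]
      have : gramC μ F = (1 / 4 : ℝ) • gramC (4 * μ) F := by
        rw [gramC_smul]; module
      conv_lhs => rw [this]
      rw [Matrix.mul_smul, Matrix.smul_mul]
    have e2 : phi (gramC μ F) - (1 / 4 : ℝ) • (res (gramC (4 * μ) F)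
        - res (gramC (4 * μ) F) * res (gramC (4 * μ) F))
        = (1 / 4 : ℝ) • (((4 : ℝ) • phi (gramC μ F) - phi ((4 : ℝ) • gramC μ F))
          + phi (gramC (4 * μ) F) * phi (gramC (4 * μ) F)) := by
      rw [← gramC_smul]
      generalize phi (gramC μ F) = p
      rw [phi]
      generalize res (gramC (4 * μ) F) = Q
      have : (1 - Q) * (1 - Q) = 1 - Q - (Q - Q * Q) := by noncomm_ring
      rw [this]; module
    rw [e1, e2]
    exact ((phi_four hX).add (psd_sq (phi_symm hX4))).smul (by norm_num)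
  · rw [reg, gramR_mul hs4, phi_gramR hμ, ← smul_sub]
    refine PosSemidef.smul ?_ hμ
    have : F * res (gramC μ F) * Fᵀ
          - F * (res (gramC (4 * μ) F) * res (gramC (4 * μ) F)) * Fᵀ
        = F * ((res (gramC (4 * μ) F) - res (gramC (4 * μ) F) * res (gramC (4 * μ) F))
          + (res (gramC μ F) - res (gramC (4 * μ) F))) * Fᵀ := by
      simp only [Matrix.mul_add, Matrix.add_mul, Matrix.mul_sub, Matrix.sub_mul]
      abel
    rw [this]
    refine psd_conj ((res_sub_sq_psd hX4).add ?_) F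
    have e : gramC (4 * μ) F = gramC μ F + (3 : ℝ) • gramC μ F := by
      rw [gramC_smul]; module
    rw [e]
    exact res_anti hX (hX.smul (by norm_num))

theorem trace_mul_abs_le {c : ℝ} (hc : 0 < c) (U V : Matrix n n ℝ) :
    |(U * V).trace| ≤ (1 / 2) * (c * (U * Uᵀ).trace + c⁻¹ * (V * Vᵀ).trace) := by
  have key : ∀ e : ℝ, e * e = 1 →
      e * (U * V).trace ≤ (1 / 2) * (c * (U * Uᵀ).trace + c⁻¹ * (V * Vᵀ).trace) := by
    intro e he
    have h := (psd_mul_transpose (c • Uᵀ - e • V)).trace_nonneg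
    have h1 : (c • Uᵀ - e • V) * (c • Uᵀ - e • V)ᵀ
        = (c * c) • (Uᵀ * U) - (c * e) • (Uᵀ * Vᵀ) - (e * c) • (V * U) + (e * e) • (V * Vᵀ) := by
      simp only [transpose_sub, transpose_smul, transpose_transpose, Matrix.mul_sub,
        Matrix.sub_mul, Matrix.mul_smul, Matrix.smul_mul]
      module
    rw [h1, trace_add, trace_sub, trace_sub, trace_smul, trace_smul, trace_smul, trace_smul,
      trace_mul_comm Uᵀ U, trace_mul_comm V U] at h
    have h2 : (Uᵀ * Vᵀ).trace = (U * V).trace := by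
      rw [← transpose_mul, trace_transpose, trace_mul_comm]
    rw [h2, he] at h
    simp only [smul_eq_mul] at h
    have h3 : 2 * c * (e * (U * V).trace) ≤ c * (c * (U * Uᵀ).trace + c⁻¹ * (V * Vᵀ).trace) := by
      have : c * (c⁻¹ * (V * Vᵀ).trace) = (V * Vᵀ).trace := by
        rw [← mul_assoc, mul_inv_cancel₀ hc.ne', one_mul]
      rw [mul_add, this]
      nlinarith
    have h4 : c * (2 * (e * (U * V).trace)) ≤ c * (c * (U * Uᵀ).trace + c⁻¹ * (V * Vᵀ).trace) := by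
      nlinarith
    have h5 := le_of_mul_le_mul_left h4 hc
    linarith
  rw [abs_le]
  constructor
  · have := key (-1) (by norm_num)
    linarith
  · have := key 1 (by norm_num)
    linarith

/-- Cauchy-Schwarz for one factor replaced by the difference of consecutive regularisations -/
theorem T3_diff_le {r : Matrix n n ℝ} (hr : rᵀ = r) (hr2 : r * r = 1) {ν μ : ℝ} (hν : 0 < ν)
    (hμ : μ = (ν ^ 2)⁻¹) {F₀ F₁ F₂ H₁ H₂ : Matrix n n ℝ} (h1 : Adm μ F₁ H₁) (h2 : Adm μ F₂ H₂) :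
    |T3 r (reg μ F₀ - reg (4 * μ) F₀) H₁ H₂|
      ≤ (3 / 4) * ν ^ 3 * (MnG r μ F₂ F₀ + MnG r μ F₀ F₁) := by
  have hμ0 : 0 ≤ μ := by rw [hμ]; positivity
  have hμpos : 0 < μ := by rw [hμ]; positivity
  have hX := gramC_psd hμ0 F₀
  have h4 : 0 ≤ 4 * μ := by linarith
  have hX4 := gramC_psd h4 F₀
  set P := res (gramC μ F₀) with hP
  set Q := res (gramC (4 * μ) F₀) with hQ
  have hPs : Pᵀ = P := res_symm hX
  have hQs : Qᵀ = Q := res_symm hX4
  set B : Matrix n n ℝ := (3 / 4 : ℝ) • phi (gramC (4 * μ) F₀) with hB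
  have hBs : Bᵀ = B := by rw [hB, transpose_smul, phi_symm hX4]
  set A : Matrix n n ℝ := F₀ * P with hA
  -- factorisation
  have hD : reg μ F₀ - reg (4 * μ) F₀ = A * B := by
    have e1 : P - Q = P * ((3 : ℝ) • gramC μ F₀) * Q := by
      have q : gramC (4 * μ) F₀ * Q = 1 - Q := mul_res hX4
      have p : P * gramC μ F₀ = 1 - P := res_mul hX
      have q' : (4 : ℝ) • (gramC μ F₀ * Q) = 1 - Q := by
        rw [← Matrix.smul_mul, ← gramC_smul]; exact q
      have e : P * ((3 : ℝ) • gramC μ F₀) * Q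
          = P * ((4 : ℝ) • (gramC μ F₀ * Q)) - (P * gramC μ F₀) * Q := by
        simp only [Matrix.mul_smul, Matrix.smul_mul, Matrix.mul_assoc]
        module
      rw [e, q', p]; noncomm_ring
    have e2 : B = ((3 : ℝ) • gramC μ F₀) * Q := by
      rw [hB, ← mul_res_phi hX4, gramC_smul, Matrix.smul_mul, Matrix.smul_mul, hQ, gramC_smul]
      module
    rw [reg, reg, ← Matrix.mul_sub]
    change F₀ * (P - Q) = A * B
    rw [e1, e2, hA, Matrix.mul_assoc, Matrix.mul_assoc]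
  -- bounds
  have hAA : (phi (gramR μ F₀) - gramR μ A).PosSemidef := (adm_one hμ0 F₀).2
  have hBB : ((9 / 4 : ℝ) • phi (gramC μ F₀) - B * B).PosSemidef := by
    have e : (9 / 4 : ℝ) • phi (gramC μ F₀) - B * B
        = (9 / 16 : ℝ) • (((4 : ℝ) • phi (gramC μ F₀) - phi ((4 : ℝ) • gramC μ F₀))
          + (phi (gramC (4 * μ) F₀) - phi (gramC (4 * μ) F₀) * phi (gramC (4 * μ) F₀))) := by
      rw [hB, ← gramC_smul, Matrix.smul_mul, Matrix.mul_smul, smul_smul]
      module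
    rw [e]
    exact ((phi_four hX).add (phi_sub_sq_psd hX4)).smul (by norm_num)
  have hT : T3 r (reg μ F₀ - reg (4 * μ) F₀) H₁ H₂ = ((H₂ * r * A) * (B * r * H₁ * r)).trace := by
    rw [hD, T3]
    rw [show r * (A * B) * r * H₁ * r * H₂ = (r * A * B * r * H₁ * r) * H₂ by
      simp only [Matrix.mul_assoc], trace_mul_comm]
    congr 1
    simp only [Matrix.mul_assoc]
  rw [hT]
  clear hT hD
  clear_value A B
  have hc : 0 < (3 / 2) / ν := by positivity
  refine (trace_mul_abs_le hc _ _).trans ?_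
  -- first square
  have s1 : μ ^ 2 * ((H₂ * r * A) * (H₂ * r * A)ᵀ).trace ≤ MnG r μ F₂ F₀ := by
    have e1 : μ ^ 2 * ((H₂ * r * A) * (H₂ * r * A)ᵀ).trace
        = (gramC μ H₂ * (r * gramR μ A * r)).trace := by
      rw [transpose_mul, transpose_mul, hr, gramC, gramR]
      rw [show H₂ * r * A * (Aᵀ * (r * H₂ᵀ)) = (H₂ * (r * A * Aᵀ * r)) * H₂ᵀ by
        simp only [Matrix.mul_assoc], trace_mul_comm]
      simp only [Matrix.mul_smul, Matrix.smul_mul, trace_smul, smul_eq_mul, Matrix.mul_assoc]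
      ring
    rw [e1, MnG]
    have i1 : (gramC μ H₂ * (r * gramR μ A * r)).trace
        ≤ (phi (gramC μ F₂) * (r * gramR μ A * r)).trace :=
      trace_mul_le_left (psd_conj_symm (gramR_psd hμ0 A) hr) h2.1
    have i2 : (phi (gramC μ F₂) * (r * gramR μ A * r)).trace
        ≤ (phi (gramC μ F₂) * (r * phi (gramR μ F₀) * r)).trace := by
      refine trace_mul_le_right (phi_psd (gramC_psd hμ0 F₂)) ?_
      have := psd_conj_symm hAA hr
      rwa [Matrix.mul_sub, Matrix.sub_mul] at this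
    exact i1.trans i2
  have s2 : μ * ((B * r * H₁ * r) * (B * r * H₁ * r)ᵀ).trace ≤ (9 / 4) * MnG r μ F₀ F₁ := by
    have e1 : μ * ((B * r * H₁ * r) * (B * r * H₁ * r)ᵀ).trace
        = ((B * B) * (r * gramR μ H₁ * r)).trace := by
      rw [transpose_mul, transpose_mul, transpose_mul, hr, hBs, gramR]
      rw [show B * r * H₁ * r * (r * (H₁ᵀ * (r * B))) = (B * r * H₁ * (r * r) * H₁ᵀ * r) * B by
        simp only [Matrix.mul_assoc], hr2, trace_mul_comm]
      simp only [Matrix.mul_smul, Matrix.smul_mul, trace_smul, smul_eq_mul, Matrix.mul_assoc,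
        Matrix.one_mul]
    rw [e1, MnG]
    have i1 : ((B * B) * (r * gramR μ H₁ * r)).trace
        ≤ (((9 / 4 : ℝ) • phi (gramC μ F₀)) * (r * gramR μ H₁ * r)).trace :=
      trace_mul_le_left (psd_conj_symm (gramR_psd hμ0 H₁) hr) hBB
    have i2 : (phi (gramC μ F₀) * (r * gramR μ H₁ * r)).trace
        ≤ (phi (gramC μ F₀) * (r * phi (gramR μ F₁) * r)).trace := by
      refine trace_mul_le_right (phi_psd (gramC_psd hμ0 F₀)) ?_
      have := psd_conj_symm h1.2 hr
      rwa [Matrix.mul_sub, Matrix.sub_mul] at this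
    rw [Matrix.smul_mul, trace_smul, smul_eq_mul] at i1
    linarith
  generalize ((H₂ * r * A) * (H₂ * r * A)ᵀ).trace = t1 at *
  generalize ((B * r * H₁ * r) * (B * r * H₁ * r)ᵀ).trace = t2 at *
  have s1' : t1 ≤ ν ^ 4 * MnG r μ F₂ F₀ := by
    have : t1 = ν ^ 4 * (μ ^ 2 * t1) := by
      rw [hμ]; field_simp
    rw [this]
    exact mul_le_mul_of_nonneg_left s1 (by positivity)
  have s2' : t2 ≤ ν ^ 2 * ((9 / 4) * MnG r μ F₀ F₁) := by
    have : t2 = ν ^ 2 * (μ * t2) := by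
      rw [hμ]; field_simp
    rw [this]
    exact mul_le_mul_of_nonneg_left s2 (by positivity)
  have hinv : ((3 / 2) / ν)⁻¹ = (2 / 3) * ν := by field_simp
  rw [hinv]
  have f1 : (3 / 2) / ν * t1 ≤ (3 / 2) / ν * (ν ^ 4 * MnG r μ F₂ F₀) :=
    mul_le_mul_of_nonneg_left s1' hc.le
  have f2 : (2 / 3) * ν * t2 ≤ (2 / 3) * ν * (ν ^ 2 * ((9 / 4) * MnG r μ F₀ F₁)) :=
    mul_le_mul_of_nonneg_left s2' (by positivity)
  have f3 : (3 / 2) / ν * (ν ^ 4 * MnG r μ F₂ F₀) = (3 / 2) * ν ^ 3 * MnG r μ F₂ F₀ := by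
    field_simp
  have f4 : (2 / 3) * ν * (ν ^ 2 * ((9 / 4) * MnG r μ F₀ F₁)) = (3 / 2) * ν ^ 3 * MnG r μ F₀ F₁ := by
    ring
  rw [f3] at f1
  rw [f4] at f2
  linarith

/-- the level estimate -/
theorem T3_level {r : Matrix n n ℝ} (hr : rᵀ = r) (hr2 : r * r = 1) {ν μ : ℝ} (hν : 0 < ν)
    (hμ : μ = (ν ^ 2)⁻¹) (F₀ F₁ F₂ : Matrix n n ℝ) :
    |T3 r (reg μ F₀) (reg μ F₁) (reg μ F₂)
      - T3 r (reg (4 * μ) F₀) (reg (4 * μ) F₁) (reg (4 * μ) F₂)|
      ≤ (3 / 2) * ν ^ 3 * (MnG r μ F₀ F₁ + MnG r μ F₁ F₂ + MnG r μ F₂ F₀) := by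
  have hμ0 : 0 ≤ μ := by rw [hμ]; positivity
  have a1 := T3_diff_le (F₀ := F₀) hr hr2 hν hμ (adm_one hμ0 F₁) (adm_one hμ0 F₂)
  have a2 := T3_diff_le (F₀ := F₁) hr hr2 hν hμ (adm_one hμ0 F₂) (adm_four hμ0 F₀)
  have a3 := T3_diff_le (F₀ := F₂) hr hr2 hν hμ (adm_four hμ0 F₀) (adm_four hμ0 F₁)
  have e : T3 r (reg μ F₀) (reg μ F₁) (reg μ F₂)
      - T3 r (reg (4 * μ) F₀) (reg (4 * μ) F₁) (reg (4 * μ) F₂)
      = T3 r (reg μ F₀ - reg (4 * μ) F₀) (reg μ F₁) (reg μ F₂)
        + T3 r (reg μ F₁ - reg (4 * μ) F₁) (reg μ F₂) (reg (4 * μ) F₀)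
        + T3 r (reg μ F₂ - reg (4 * μ) F₂) (reg (4 * μ) F₀) (reg (4 * μ) F₁) := by
    have b2 : T3 r (reg μ F₁ - reg (4 * μ) F₁) (reg μ F₂) (reg (4 * μ) F₀)
        = T3 r (reg (4 * μ) F₀) (reg μ F₁ - reg (4 * μ) F₁) (reg μ F₂) := by
      rw [T3_cyc r (reg (4 * μ) F₀)]
    have b3 : T3 r (reg μ F₂ - reg (4 * μ) F₂) (reg (4 * μ) F₀) (reg (4 * μ) F₁)
        = T3 r (reg (4 * μ) F₀) (reg (4 * μ) F₁) (reg μ F₂ - reg (4 * μ) F₂) := by
      rw [T3_cyc r (reg μ F₂ - reg (4 * μ) F₂)]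
    rw [b2, b3]
    simp only [T3, Matrix.mul_sub, Matrix.sub_mul, trace_sub]
    ring
  rw [e]
  have := abs_add_three (T3 r (reg μ F₀ - reg (4 * μ) F₀) (reg μ F₁) (reg μ F₂))
    (T3 r (reg μ F₁ - reg (4 * μ) F₁) (reg μ F₂) (reg (4 * μ) F₀))
    (T3 r (reg μ F₂ - reg (4 * μ) F₂) (reg (4 * μ) F₀) (reg (4 * μ) F₁))
  linarith

end Vale.Agent.P075
end
end

section

section

set_option linter.unusedSectionVars false
set_option linter.unusedVariables false

namespace Vale.Agent.P075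

open Matrix Filter Topology

variable {n m : Type*} [Fintype n] [DecidableEq n] [Fintype m] [DecidableEq m]

/-! ### limits of the regularisation -/

theorem reg_tendsto_zero_param (F : Matrix n n ℝ) :
    Tendsto (fun μ : ℝ => reg μ F) (𝓝 0) (𝓝 F) := by
  have hdet : Continuous (fun μ : ℝ => (1 + gramC μ F).det) := by
    unfold gramC
    fun_prop
  have hadj : Continuous (fun μ : ℝ => (1 + gramC μ F).adjugate) := by
    unfold gramC
    fun_prop
  have h0 : (1 + gramC 0 F) = 1 := by simp [gramC]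
  have h1 : Tendsto (fun μ : ℝ => ((1 + gramC μ F).det)⁻¹) (𝓝 0) (𝓝 1) := by
    have := (hdet.tendsto 0)
    rw [h0, det_one] at this
    have h2 := this.inv₀ one_ne_zero
    rwa [inv_one] at h2
  have h2 : Tendsto (fun μ : ℝ => (1 + gramC μ F).adjugate) (𝓝 0) (𝓝 1) := by
    have := (hadj.tendsto 0)
    rwa [h0, adjugate_one] at this
  have h3 : Tendsto (fun μ : ℝ => res (gramC μ F)) (𝓝 0) (𝓝 1) := by
    have := h1.smul h2
    rw [one_smul] at this
    refine this.congr (fun μ => ?_)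
    rw [res, inv_def, Ring.inverse_eq_inv']
  have h4 : Tendsto (fun μ : ℝ => F * res (gramC μ F)) (𝓝 0) (𝓝 (F * 1)) := by
    have hc : Continuous (fun R : Matrix n n ℝ => F * R) := by fun_prop
    exact (hc.tendsto 1).comp h3
  rw [Matrix.mul_one] at h4
  exact h4

theorem entry_sq_le_trace (H : Matrix n n ℝ) (i j : n) : (H i j) ^ 2 ≤ (Hᵀ * H).trace := by
  have h : (Hᵀ * H).trace = ∑ b, ∑ a, (H a b) ^ 2 := by
    simp [Matrix.trace, Matrix.mul_apply, sq]
  rw [h]
  calc (H i j) ^ 2 ≤ ∑ a, (H a j) ^ 2 :=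
        Finset.single_le_sum (f := fun a => (H a j) ^ 2) (fun a _ => sq_nonneg _)
          (Finset.mem_univ i)
    _ ≤ ∑ b, ∑ a, (H a b) ^ 2 :=
        Finset.single_le_sum (f := fun b => ∑ a, (H a b) ^ 2)
          (fun b _ => Finset.sum_nonneg fun a _ => sq_nonneg _) (Finset.mem_univ j)

theorem reg_entry_le {μ : ℝ} (hμ : 0 < μ) (F : Matrix n n ℝ) (i j : n) :
    (reg μ F i j) ^ 2 ≤ (Fintype.card n : ℝ) * μ⁻¹ := by
  have h1 := entry_sq_le_trace (reg μ F) i j
  have h2 := (adm_one hμ.le F).1.trace_nonneg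
  have h3 := (one_sub_phi_psd (gramC_psd hμ.le F)).trace_nonneg
  rw [trace_sub, trace_one] at h3
  rw [trace_sub] at h2
  have h4 : (gramC μ (reg μ F)).trace = μ * ((reg μ F)ᵀ * reg μ F).trace := by
    rw [gramC, trace_smul, smul_eq_mul]
  rw [h4] at h2
  have h5 : ((reg μ F)ᵀ * reg μ F).trace = μ⁻¹ * (μ * ((reg μ F)ᵀ * reg μ F).trace) := by
    field_simp
  have h6 : μ * ((reg μ F)ᵀ * reg μ F).trace ≤ (Fintype.card n : ℝ) := by linarith
  calc (reg μ F i j) ^ 2 ≤ μ⁻¹ * (μ * ((reg μ F)ᵀ * reg μ F).trace) := by rw [← h5]; exact h1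
    _ ≤ μ⁻¹ * (Fintype.card n : ℝ) := by gcongr
    _ = _ := by ring

theorem reg_tendsto_atTop (F : Matrix n n ℝ) :
    Tendsto (fun μ : ℝ => reg μ F) atTop (𝓝 0) := by
  refine tendsto_pi_nhds.mpr (fun i => tendsto_pi_nhds.mpr (fun j => ?_))
  have h1 : Tendsto (fun μ : ℝ => Real.sqrt ((Fintype.card n : ℝ) * μ⁻¹)) atTop (𝓝 0) := by
    have h2 : Tendsto (fun μ : ℝ => (Fintype.card n : ℝ) * μ⁻¹) atTop (𝓝 0) := by
      have := (tendsto_inv_atTop_zero (𝕜 := ℝ)).const_mul (Fintype.card n : ℝ)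
      rwa [mul_zero] at this
    have h3 := (Real.continuous_sqrt.tendsto 0).comp h2
    rwa [Real.sqrt_zero] at h3
  refine squeeze_zero_norm' ?_ h1
  filter_upwards [eventually_gt_atTop 0] with μ hμ
  rw [Real.norm_eq_abs]
  exact Real.abs_le_sqrt (reg_entry_le hμ F i j)

theorem T3_reg_tendsto {α : Type*} {l : Filter α} (r F₀ F₁ F₂ G₀ G₁ G₂ : Matrix n n ℝ)
    {f : α → ℝ} (h0 : Tendsto (fun a => reg (f a) F₀) l (𝓝 G₀))
    (h1 : Tendsto (fun a => reg (f a) F₁) l (𝓝 G₁))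
    (h2 : Tendsto (fun a => reg (f a) F₂) l (𝓝 G₂)) :
    Tendsto (fun a => T3 r (reg (f a) F₀) (reg (f a) F₁) (reg (f a) F₂)) l
      (𝓝 (T3 r G₀ G₁ G₂)) := by
  have hr : Tendsto (fun _ : α => r) l (𝓝 r) := tendsto_const_nhds
  have hm : Tendsto (fun a => r * reg (f a) F₀ * r * reg (f a) F₁ * r * reg (f a) F₂) l
      (𝓝 (r * G₀ * r * G₁ * r * G₂)) := ((((hr.mul h0).mul hr).mul h1).mul hr).mul h2
  have hc : Continuous (fun A : Matrix n n ℝ => A.trace) := by fun_prop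
  exact (hc.tendsto _).comp hm

/-! ### energies -/

theorem Em_nonneg {μ : ℝ} (hμ : 0 ≤ μ) (F H : Matrix n n ℝ) : 0 ≤ Em μ F H :=
  trace_mul_nonneg (phi_psd (gramC_psd hμ F)) (phi_psd (gramR_psd hμ H))

theorem GX_nonneg {X : Matrix n n ℝ} (hX : X.PosSemidef) : 0 ≤ GX X := by
  have h := det_le_exp (posDef_one_add hX).posSemidef
  rw [trace_add, trace_one, add_sub_cancel_left] at h
  have h2 := Real.log_le_log (det_pos_one_add hX) h
  rw [Real.log_exp] at h2
  rw [GX, ld]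
  linarith

theorem G_nonneg {μ : ℝ} (hμ : 0 ≤ μ) (F : Matrix n n ℝ) : 0 ≤ G μ F :=
  GX_nonneg (gramC_psd hμ F)

/-- combined energy of a triple -/
noncomputable def E3 (μ : ℝ) (F₀ F₁ F₂ : Matrix n n ℝ) : ℝ :=
  (Em μ F₀ F₁ + Em μ F₁ F₂ + Em μ F₂ F₀) + 28 * (G μ F₀ + G μ F₁ + G μ F₂)

theorem E3_nonneg {μ : ℝ} (hμ : 0 ≤ μ) (F₀ F₁ F₂ : Matrix n n ℝ) : 0 ≤ E3 μ F₀ F₁ F₂ := by
  have := Em_nonneg hμ F₀ F₁
  have := Em_nonneg hμ F₁ F₂
  have := Em_nonneg hμ F₂ F₀
  have := G_nonneg hμ F₀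
  have := G_nonneg hμ F₁
  have := G_nonneg hμ F₂
  rw [E3]; positivity

theorem one_step3 {μ : ℝ} (hμ : 0 ≤ μ) (F₀ F₁ F₂ : Matrix (m ⊕ m) (m ⊕ m) ℝ) :
    (1 / 2) * (Mn μ F₀ F₁ + Mn μ F₁ F₂ + Mn μ F₂ F₀) ≤
      (1 / 4) * (∑ a : Bool, ∑ b : Bool,
        E3 (4 * μ) (blk F₀ a b) (blk F₁ b (xor a b)) (blk F₂ (xor a b) a)) - E3 μ F₀ F₁ F₂ := by
  have h1 := one_step hμ F₀ F₁
  have h2 := one_step hμ F₁ F₂
  have h3 := one_step hμ F₂ F₀
  simp only [E3]
  simp only [Fintype.sum_bool, Bool.xor_false, Bool.xor_true, Bool.not_true, Bool.not_false] at *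
  linarith

/-- level parameter at scale `k`, level `τ` -/
noncomputable def muk (k : ℕ) (τ : ℝ) : ℝ := (((2 : ℝ) ^ k * τ) ^ 2)⁻¹

theorem muk_nonneg (k : ℕ) (τ : ℝ) : 0 ≤ muk k τ := by unfold muk; positivity

theorem muk_succ (k : ℕ) (τ : ℝ) : muk k τ = 4 * muk (k + 1) τ := by
  unfold muk
  rcases eq_or_ne τ 0 with h | h
  · simp [h]
  · rw [pow_succ]; field_simp; ring

theorem muk_half (k : ℕ) (τ : ℝ) : muk k τ = 4 * muk k (2 * τ) := by
  unfold muk
  rcases eq_or_ne τ 0 with h | h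
  · simp [h]
  · field_simp; norm_num

/-- total Bellman functional at scale `k` with levels `s 2^(j+1)`, `j < N` -/
noncomputable def Btot (k : ℕ) (s : ℝ) (N : ℕ) (F₀ F₁ F₂ : Matrix n n ℝ) : ℝ :=
  ∑ j ∈ Finset.range N, 3 * (s * 2 ^ (j + 1)) ^ 3 * E3 (muk k (s * 2 ^ (j + 1))) F₀ F₁ F₂

theorem Btot_nonneg (k : ℕ) {s : ℝ} (hs : 0 < s) (N : ℕ) (F₀ F₁ F₂ : Matrix n n ℝ) :
    0 ≤ Btot k s N F₀ F₁ F₂ := by
  refine Finset.sum_nonneg (fun j _ => mul_nonneg (by positivity) (E3_nonneg (muk_nonneg _ _) _ _ _))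

/-- regularised trilinear form at scale `k`, level `τ` -/
noncomputable def TR (k : ℕ) (r : Matrix n n ℝ) (τ : ℝ) (F₀ F₁ F₂ : Matrix n n ℝ) : ℝ :=
  T3 r (reg (muk k τ) F₀) (reg (muk k τ) F₁) (reg (muk k τ) F₂)

theorem TR_level (k : ℕ) {s : ℝ} (hs : 0 < s) (F₀ F₁ F₂ : Matrix (m ⊕ m) (m ⊕ m) ℝ) (j : ℕ) :
    ((8 : ℝ) ^ (k + 1))⁻¹ * |TR (k + 1) (rad m) (s * 2 ^ (j + 1)) F₀ F₁ F₂
        - TR (k + 1) (rad m) (s * 2 ^ j) F₀ F₁ F₂|
      ≤ (1 / 4) * (∑ a : Bool, ∑ b : Bool, 3 * (s * 2 ^ (j + 1)) ^ 3 *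
        E3 (muk k (s * 2 ^ (j + 1))) (blk F₀ a b) (blk F₁ b (xor a b)) (blk F₂ (xor a b) a))
        - 3 * (s * 2 ^ (j + 1)) ^ 3 * E3 (muk (k + 1) (s * 2 ^ (j + 1))) F₀ F₁ F₂ := by
  set τ := s * 2 ^ (j + 1) with hτ
  have hτpos : 0 < τ := by positivity
  have hτ2 : τ = 2 * (s * 2 ^ j) := by rw [hτ, pow_succ]; ring
  have hν : 0 < (2 : ℝ) ^ (k + 1) * τ := by positivity
  have h1 := T3_level (rad_symm (m := m)) rad_sq hν (μ := muk (k + 1) τ) rfl F₀ F₁ F₂
  have h2 := one_step3 (muk_nonneg (k + 1) τ) F₀ F₁ F₂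
  have hm : muk (k + 1) (s * 2 ^ j) = 4 * muk (k + 1) τ := by rw [hτ2]; exact muk_half _ _
  rw [muk_succ k τ, TR, TR, hm]
  simp only [← Mn_eq] at h1
  have h8 : (0 : ℝ) < ((8 : ℝ) ^ (k + 1))⁻¹ := by positivity
  have h3 := mul_le_mul_of_nonneg_left h1 h8.le
  refine h3.trans ?_
  have e8 : ((8 : ℝ) ^ (k + 1))⁻¹ * ((3 / 2) * ((2 : ℝ) ^ (k + 1) * τ) ^ 3 *
      (Mn (muk (k + 1) τ) F₀ F₁ + Mn (muk (k + 1) τ) F₁ F₂ + Mn (muk (k + 1) τ) F₂ F₀))
      = 3 * τ ^ 3 * ((1 / 2) * (Mn (muk (k + 1) τ) F₀ F₁ + Mn (muk (k + 1) τ) F₁ F₂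
        + Mn (muk (k + 1) τ) F₂ F₀)) := by
    have : (8 : ℝ) ^ (k + 1) = ((2 : ℝ) ^ (k + 1)) ^ 3 := by
      rw [← pow_mul, mul_comm (k + 1) 3, pow_mul]; norm_num
    rw [this]
    field_simp
  rw [e8]
  have h4 := mul_le_mul_of_nonneg_left h2 (show 0 ≤ 3 * τ ^ 3 by positivity)
  refine h4.trans (le_of_eq ?_)
  simp only [← Finset.mul_sum]
  ring

/-- error term: deviation of the truncated telescoping -/
noncomputable def err (k : ℕ) (r : Matrix n n ℝ) (s : ℝ) (N : ℕ) (F₀ F₁ F₂ : Matrix n n ℝ) : ℝ :=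
  |T3 r F₀ F₁ F₂ - TR k r (s * 2 ^ N) F₀ F₁ F₂| + |TR k r s F₀ F₁ F₂|

theorem T3_le (k : ℕ) {s : ℝ} (hs : 0 < s) (N : ℕ) (F₀ F₁ F₂ : Matrix (m ⊕ m) (m ⊕ m) ℝ) :
    ((8 : ℝ) ^ (k + 1))⁻¹ * |T3 (rad m) F₀ F₁ F₂|
      ≤ ((8 : ℝ) ^ (k + 1))⁻¹ * err (k + 1) (rad m) s N F₀ F₁ F₂
        + (1 / 4) * (∑ a : Bool, ∑ b : Bool,
          Btot k s N (blk F₀ a b) (blk F₁ b (xor a b)) (blk F₂ (xor a b) a))
        - Btot (k + 1) s N F₀ F₁ F₂ := by
  have h1 : ((8 : ℝ) ^ (k + 1))⁻¹ * |TR (k + 1) (rad m) (s * 2 ^ N) F₀ F₁ F₂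
        - TR (k + 1) (rad m) s F₀ F₁ F₂|
      ≤ (1 / 4) * (∑ a : Bool, ∑ b : Bool,
          Btot k s N (blk F₀ a b) (blk F₁ b (xor a b)) (blk F₂ (xor a b) a))
        - Btot (k + 1) s N F₀ F₁ F₂ := by
    have h2 : TR (k + 1) (rad m) (s * 2 ^ N) F₀ F₁ F₂ - TR (k + 1) (rad m) s F₀ F₁ F₂
        = ∑ j ∈ Finset.range N, (TR (k + 1) (rad m) (s * 2 ^ (j + 1)) F₀ F₁ F₂
          - TR (k + 1) (rad m) (s * 2 ^ j) F₀ F₁ F₂) := by
      rw [Finset.sum_range_sub (fun j => TR (k + 1) (rad m) (s * 2 ^ j) F₀ F₁ F₂)]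
      simp
    rw [h2]
    calc ((8 : ℝ) ^ (k + 1))⁻¹ * |∑ j ∈ Finset.range N,
          (TR (k + 1) (rad m) (s * 2 ^ (j + 1)) F₀ F₁ F₂
          - TR (k + 1) (rad m) (s * 2 ^ j) F₀ F₁ F₂)|
        ≤ ((8 : ℝ) ^ (k + 1))⁻¹ * ∑ j ∈ Finset.range N,
          |TR (k + 1) (rad m) (s * 2 ^ (j + 1)) F₀ F₁ F₂
          - TR (k + 1) (rad m) (s * 2 ^ j) F₀ F₁ F₂| := by
          gcongr; exact Finset.abs_sum_le_sum_abs _ _
      _ ≤ ∑ j ∈ Finset.range N, ((1 / 4) * (∑ a : Bool, ∑ b : Bool, 3 * (s * 2 ^ (j + 1)) ^ 3 *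
        E3 (muk k (s * 2 ^ (j + 1))) (blk F₀ a b) (blk F₁ b (xor a b)) (blk F₂ (xor a b) a))
        - 3 * (s * 2 ^ (j + 1)) ^ 3 * E3 (muk (k + 1) (s * 2 ^ (j + 1))) F₀ F₁ F₂) := by
          rw [Finset.mul_sum]
          exact Finset.sum_le_sum (fun j _ => TR_level k hs F₀ F₁ F₂ j)
      _ = _ := by
          rw [Finset.sum_sub_distrib, ← Finset.mul_sum]
          congr 2
          simp only [Btot, Fintype.sum_bool, Finset.sum_add_distrib]
  have h8 : (0 : ℝ) < ((8 : ℝ) ^ (k + 1))⁻¹ := by positivity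
  have h3 : |T3 (rad m) F₀ F₁ F₂| ≤ err (k + 1) (rad m) s N F₀ F₁ F₂
      + |TR (k + 1) (rad m) (s * 2 ^ N) F₀ F₁ F₂ - TR (k + 1) (rad m) s F₀ F₁ F₂| := by
    rw [err]
    have e : T3 (rad m) F₀ F₁ F₂
      = (T3 (rad m) F₀ F₁ F₂ - TR (k + 1) (rad m) (s * 2 ^ N) F₀ F₁ F₂)
        + TR (k + 1) (rad m) s F₀ F₁ F₂
        + (TR (k + 1) (rad m) (s * 2 ^ N) F₀ F₁ F₂ - TR (k + 1) (rad m) s F₀ F₁ F₂) := by ring
    conv_lhs => rw [e]
    exact abs_add_three _ _ _
  have h4 := mul_le_mul_of_nonneg_left h3 h8.le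
  rw [mul_add] at h4
  linarith

theorem err_tendsto (k : ℕ) (r F₀ F₁ F₂ : Matrix n n ℝ) :
    Tendsto (fun J : ℕ => err k r ((2 : ℝ) ^ J)⁻¹ (2 * J) F₀ F₁ F₂) atTop (𝓝 0) := by
  have hlow : Tendsto (fun J : ℕ => muk k ((2 : ℝ) ^ J)⁻¹) atTop atTop := by
    have e : ∀ J : ℕ, muk k ((2 : ℝ) ^ J)⁻¹ = (((2 : ℝ) ^ k) ^ 2)⁻¹ * (4 : ℝ) ^ J := by
      intro J
      unfold muk
      have e4 : ((2 : ℝ) ^ J) ^ 2 = 4 ^ J := by
        rw [← pow_mul, mul_comm J 2, pow_mul]; norm_num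
      rw [mul_pow, mul_inv, inv_pow, inv_inv, e4]
    simp only [e]
    exact (tendsto_pow_atTop_atTop_of_one_lt (by norm_num)).const_mul_atTop (by positivity)
  have hhigh : Tendsto (fun J : ℕ => muk k (((2 : ℝ) ^ J)⁻¹ * 2 ^ (2 * J))) atTop (𝓝 0) := by
    have e : ∀ J : ℕ, muk k (((2 : ℝ) ^ J)⁻¹ * 2 ^ (2 * J))
        = (((2 : ℝ) ^ k) ^ 2)⁻¹ * (1 / 4 : ℝ) ^ J := by
      intro J
      unfold muk
      have : ((2 : ℝ) ^ J)⁻¹ * 2 ^ (2 * J) = 2 ^ J := by
        rw [two_mul, pow_add]; field_simp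
      have e4 : ((2 : ℝ) ^ J) ^ 2 = 4 ^ J := by
        rw [← pow_mul, mul_comm J 2, pow_mul]; norm_num
      rw [this, mul_pow, mul_inv, e4, one_div, inv_pow]
    simp only [e]
    have := (tendsto_pow_atTop_nhds_zero_of_lt_one (r := (1 / 4 : ℝ)) (by norm_num)
      (by norm_num)).const_mul (((2 : ℝ) ^ k) ^ 2)⁻¹
    rwa [mul_zero] at this
  have t1 : Tendsto (fun J : ℕ => TR k r ((2 : ℝ) ^ J)⁻¹ F₀ F₁ F₂) atTop (𝓝 0) := by
    have h := T3_reg_tendsto r F₀ F₁ F₂ 0 0 0 ((reg_tendsto_atTop F₀).comp hlow)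
      ((reg_tendsto_atTop F₁).comp hlow) ((reg_tendsto_atTop F₂).comp hlow)
    have e0 : T3 r 0 0 0 = 0 := by simp [T3]
    rw [e0] at h
    exact h
  have t2 : Tendsto (fun J : ℕ => TR k r (((2 : ℝ) ^ J)⁻¹ * 2 ^ (2 * J)) F₀ F₁ F₂) atTop
      (𝓝 (T3 r F₀ F₁ F₂)) :=
    T3_reg_tendsto r F₀ F₁ F₂ F₀ F₁ F₂ ((reg_tendsto_zero_param F₀).comp hhigh)
      ((reg_tendsto_zero_param F₁).comp hhigh) ((reg_tendsto_zero_param F₂).comp hhigh)
  have t3 : Tendsto (fun J : ℕ => T3 r F₀ F₁ F₂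
      - TR k r (((2 : ℝ) ^ J)⁻¹ * 2 ^ (2 * J)) F₀ F₁ F₂) atTop (𝓝 0) := by
    have := t2.const_sub (T3 r F₀ F₁ F₂)
    rwa [sub_self] at this
  have := t3.abs.add t1.abs
  rw [abs_zero, add_zero] at this
  exact this

end Vale.Agent.P075
end
end

section

section

set_option linter.unusedSectionVars false
set_option linter.unusedVariables false

namespace Vale.Agent.P075

open Matrix

section scalar

/-- `h(u) = u²/(1+u)` -/
noncomputable def hh (u : ℝ) : ℝ := u ^ 2 / (1 + u)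

theorem sub_log_le {u : ℝ} (hu : 0 ≤ u) : u - Real.log (1 + u) ≤ hh u := by
  have hpos : 0 < 1 + u := by linarith
  have h1 := Real.one_sub_inv_le_log_of_pos hpos
  have h2 : u - (1 - (1 + u)⁻¹) = hh u := by
    unfold hh; field_simp; ring
  linarith

/-- telescoping majorant -/
theorem level_scalar {x τ : ℝ} (hx : 0 ≤ x) (hτ : 0 < τ) :
    τ ^ 3 * hh (x ^ 2 / τ ^ 2) ≤ (7 / 2) * x ^ 3 * (2 * τ / (x + 2 * τ) - τ / (x + τ)) := by
  have h1 : τ ^ 3 * hh (x ^ 2 / τ ^ 2) = x ^ 3 * (x * τ / (τ ^ 2 + x ^ 2)) := by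
    unfold hh; field_simp
  have h2 : 2 * τ / (x + 2 * τ) - τ / (x + τ) = x * τ / ((x + 2 * τ) * (x + τ)) := by
    have : x + 2 * τ ≠ 0 := by positivity
    have : x + τ ≠ 0 := by positivity
    field_simp; ring
  rw [h1, h2, mul_assoc, mul_comm (7 / 2 : ℝ), mul_assoc]
  refine mul_le_mul_of_nonneg_left ?_ (by positivity)
  rw [div_mul_eq_mul_div, div_le_div_iff₀ (by positivity) (by positivity)]
  have h3 : (x + 2 * τ) * (x + τ) ≤ (7 / 2) * (τ ^ 2 + x ^ 2) := by nlinarith [sq_nonneg (x - τ)]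
  have h4 : 0 ≤ x * τ := by positivity
  nlinarith [mul_le_mul_of_nonneg_left h3 h4]

theorem sum_level_scalar {x s : ℝ} (hx : 0 ≤ x) (hs : 0 < s) (N : ℕ) :
    ∑ j ∈ Finset.range N, (s * 2 ^ (j + 1)) ^ 3 * hh (x ^ 2 / (s * 2 ^ (j + 1)) ^ 2)
      ≤ (7 / 2) * x ^ 3 := by
  have h1 : ∀ j ∈ Finset.range N, (s * 2 ^ (j + 1)) ^ 3 * hh (x ^ 2 / (s * 2 ^ (j + 1)) ^ 2)
      ≤ (7 / 2) * x ^ 3 * ((fun j : ℕ => s * 2 ^ (j + 1) / (x + s * 2 ^ (j + 1))) (j + 1)
        - (fun j : ℕ => s * 2 ^ (j + 1) / (x + s * 2 ^ (j + 1))) j) := by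
    intro j _
    have hτ : 0 < s * 2 ^ (j + 1) := by positivity
    have h := level_scalar hx hτ
    have e : 2 * (s * 2 ^ (j + 1)) = s * 2 ^ (j + 1 + 1) := by ring
    rw [e] at h
    exact h
  refine (Finset.sum_le_sum h1).trans ?_
  rw [← Finset.mul_sum, Finset.sum_range_sub (fun j : ℕ => s * 2 ^ (j + 1) / (x + s * 2 ^ (j + 1)))]
  have hN : s * 2 ^ (N + 1) / (x + s * 2 ^ (N + 1)) ≤ 1 := by
    rw [div_le_one (by positivity)]
    linarith
  have h0 : 0 ≤ s * 2 ^ (0 + 1) / (x + s * 2 ^ (0 + 1)) := by positivity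
  have h2 : s * 2 ^ (N + 1) / (x + s * 2 ^ (N + 1)) - s * 2 ^ (0 + 1) / (x + s * 2 ^ (0 + 1)) ≤ 1 := by
    linarith
  calc _ ≤ (7 / 2) * x ^ 3 * 1 := mul_le_mul_of_nonneg_left h2 (by positivity)
    _ = _ := by ring

end scalar

section unit

theorem res_unit {X : Matrix Unit Unit ℝ} (hX : X.PosSemidef) :
    res X () () = (1 + X () ())⁻¹ := by
  have h := congrFun (congrFun (res_mul_one_add hX) ()) ()
  simp only [Matrix.mul_apply, Finset.univ_unique, PUnit.default_eq_unit, Finset.sum_singleton,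
    Matrix.add_apply, Matrix.one_apply_eq] at h
  exact eq_inv_of_mul_eq_one_left h

theorem unit_nonneg {X : Matrix Unit Unit ℝ} (hX : X.PosSemidef) : 0 ≤ X () () :=
  hX.diag_nonneg

theorem phi_unit {X : Matrix Unit Unit ℝ} (hX : X.PosSemidef) :
    phi X () () = X () () / (1 + X () ()) := by
  have := unit_nonneg hX
  rw [phi, Matrix.sub_apply, res_unit hX, Matrix.one_apply_eq]
  field_simp; ring

theorem gramC_unit (μ : ℝ) (F : Matrix Unit Unit ℝ) :
    gramC μ F () () = μ * (F () ()) ^ 2 := by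
  simp [gramC, Matrix.mul_apply, sq]

theorem gramR_unit (μ : ℝ) (F : Matrix Unit Unit ℝ) :
    gramR μ F () () = μ * (F () ()) ^ 2 := by
  simp [gramR, Matrix.mul_apply, sq]

theorem trace_unit (X : Matrix Unit Unit ℝ) : X.trace = X () () := by
  simp [Matrix.trace]

theorem G_unit_le {μ : ℝ} (hμ : 0 ≤ μ) (F : Matrix Unit Unit ℝ) :
    G μ F ≤ hh (μ * (F () ()) ^ 2) := by
  have h : G μ F = μ * (F () ()) ^ 2 - Real.log (1 + μ * (F () ()) ^ 2) := by
    rw [G, GX, ld, trace_unit, gramC_unit, Matrix.det_unique]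
    rw [Matrix.add_apply, Matrix.one_apply_eq]
    rw [show gramC μ F default default = gramC μ F () () from rfl, gramC_unit]
  rw [h]
  exact sub_log_le (by positivity)

theorem Em_unit_le {μ : ℝ} (hμ : 0 ≤ μ) (F H : Matrix Unit Unit ℝ) :
    Em μ F H ≤ (1 / 2) * (hh (μ * (F () ()) ^ 2) + hh (μ * (H () ()) ^ 2)) := by
  have h : Em μ F H = (μ * (F () ()) ^ 2 / (1 + μ * (F () ()) ^ 2))
      * (μ * (H () ()) ^ 2 / (1 + μ * (H () ()) ^ 2)) := by
    rw [Em, trace_unit, Matrix.mul_apply]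
    simp only [Finset.univ_unique, PUnit.default_eq_unit, Finset.sum_singleton]
    rw [phi_unit (gramC_psd hμ F), phi_unit (gramR_psd hμ H), gramC_unit, gramR_unit]
  have hsq : ∀ u : ℝ, 0 ≤ u → (u / (1 + u)) ^ 2 ≤ hh u := by
    intro u hu
    unfold hh
    rw [div_pow]
    apply div_le_div_of_nonneg_left (by positivity) (by positivity)
    nlinarith
  have h1 := hsq (μ * (F () ()) ^ 2) (by positivity)
  have h2 := hsq (μ * (H () ()) ^ 2) (by positivity)
  rw [h]
  nlinarith [sq_nonneg (μ * (F () ()) ^ 2 / (1 + μ * (F () ()) ^ 2)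
    - μ * (H () ()) ^ 2 / (1 + μ * (H () ()) ^ 2))]

theorem E3_unit_le {μ : ℝ} (hμ : 0 ≤ μ) (F₀ F₁ F₂ : Matrix Unit Unit ℝ) :
    E3 μ F₀ F₁ F₂ ≤ 29 * (hh (μ * (F₀ () ()) ^ 2) + hh (μ * (F₁ () ()) ^ 2)
      + hh (μ * (F₂ () ()) ^ 2)) := by
  have a := Em_unit_le hμ F₀ F₁
  have b := Em_unit_le hμ F₁ F₂
  have c := Em_unit_le hμ F₂ F₀
  have d := G_unit_le hμ F₀
  have e := G_unit_le hμ F₁
  have f := G_unit_le hμ F₂
  rw [E3]
  linarith

theorem Btot_unit_le {s : ℝ} (hs : 0 < s) (N : ℕ) (F₀ F₁ F₂ : Matrix Unit Unit ℝ) :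
    Btot 0 s N F₀ F₁ F₂ ≤ (609 / 2) * (|F₀ () ()| ^ 3 + |F₁ () ()| ^ 3 + |F₂ () ()| ^ 3) := by
  have h1 : ∀ j ∈ Finset.range N, 3 * (s * 2 ^ (j + 1)) ^ 3 * E3 (muk 0 (s * 2 ^ (j + 1))) F₀ F₁ F₂
      ≤ 87 * ((s * 2 ^ (j + 1)) ^ 3 * hh (|F₀ () ()| ^ 2 / (s * 2 ^ (j + 1)) ^ 2)
        + (s * 2 ^ (j + 1)) ^ 3 * hh (|F₁ () ()| ^ 2 / (s * 2 ^ (j + 1)) ^ 2)
        + (s * 2 ^ (j + 1)) ^ 3 * hh (|F₂ () ()| ^ 2 / (s * 2 ^ (j + 1)) ^ 2)) := by
    intro j _
    have h := E3_unit_le (muk_nonneg 0 (s * 2 ^ (j + 1))) F₀ F₁ F₂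
    have e : ∀ x : ℝ, muk 0 (s * 2 ^ (j + 1)) * x ^ 2 = |x| ^ 2 / (s * 2 ^ (j + 1)) ^ 2 := by
      intro x
      unfold muk
      rw [pow_zero, one_mul, sq_abs]
      field_simp
    rw [e, e, e] at h
    have h3 : 0 ≤ 3 * (s * 2 ^ (j + 1)) ^ 3 := by positivity
    have h4 := mul_le_mul_of_nonneg_left h h3
    refine h4.trans (le_of_eq ?_)
    ring
  rw [Btot]
  refine (Finset.sum_le_sum h1).trans ?_
  rw [← Finset.mul_sum, Finset.sum_add_distrib, Finset.sum_add_distrib]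
  have a := sum_level_scalar (abs_nonneg (F₀ () ())) hs N
  have b := sum_level_scalar (abs_nonneg (F₁ () ())) hs N
  have c := sum_level_scalar (abs_nonneg (F₂ () ())) hs N
  linarith

end unit

end Vale.Agent.P075
end
end

section

section

set_option linter.unusedSectionVars false
set_option linter.unusedVariables false

namespace Vale.Agent.P075

open Matrix Filter Topology

/-- index type with `2^k` elements, doubled at each step -/
def Ix : ℕ → Type
  | 0 => Unit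
  | k + 1 => Ix k ⊕ Ix k

instance instFintypeIx : (k : ℕ) → Fintype (Ix k)
  | 0 => inferInstanceAs (Fintype Unit)
  | k + 1 => @instFintypeSum (Ix k) (Ix k) (instFintypeIx k) (instFintypeIx k)

instance instDecIx : (k : ℕ) → DecidableEq (Ix k)
  | 0 => inferInstanceAs (DecidableEq Unit)
  | k + 1 => @instDecidableEqSum (Ix k) (Ix k) (instDecIx k) (instDecIx k)

/-- value of an index -/
def val : (k : ℕ) → Ix k → ℕ
  | 0, _ => 0
  | k + 1, Sum.inl i => val k i
  | k + 1, Sum.inr i => 2 ^ k + val k i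

theorem sum_val (k : ℕ) (f : ℕ → ℝ) : ∑ i : Ix k, f (val k i) = ∑ i ∈ Finset.range (2 ^ k), f i := by
  induction k generalizing f with
  | zero =>
    have : ∑ i : Ix 0, f (val 0 i) = ∑ i : Unit, f 0 := rfl
    rw [this]; simp
  | succ k ih =>
    have h1 : ∑ i : Ix (k + 1), f (val (k + 1) i)
        = ∑ i : Ix k ⊕ Ix k, f (val (k + 1) i) := rfl
    rw [h1, Fintype.sum_sum_type]
    have h2 : ∑ i : Ix k, f (val (k + 1) (Sum.inl i)) = ∑ i ∈ Finset.range (2 ^ k), f i := ih f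
    have h3 : ∑ i : Ix k, f (val (k + 1) (Sum.inr i))
        = ∑ i ∈ Finset.range (2 ^ k), f (2 ^ k + i) := ih (fun i => f (2 ^ k + i))
    rw [h2, h3, pow_succ, mul_two, Finset.sum_range_add]

theorem val_lt (k : ℕ) (i : Ix k) : val k i < 2 ^ k := by
  induction k with
  | zero => simp [val]
  | succ k ih =>
    rcases i with i | i
    · have := ih i
      change val k i < 2 ^ (k + 1)
      rw [pow_succ]; omega
    · have := ih i
      change 2 ^ k + val k i < 2 ^ (k + 1)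
      rw [pow_succ]; omega

/-- sign of the Haar function at scale `k`, position `i < 2^k` -/
def sg (k i : ℕ) : ℝ := if 2 * i < 2 ^ k then 1 else -1

/-- the lattice form of one triple -/
noncomputable def latL (k p q s : ℕ) (M₀ M₁ M₂ : ℕ → ℕ → ℝ) : ℝ :=
  ((2 : ℝ) ^ k)⁻¹ * ∑ i ∈ Finset.range (2 ^ k), ∑ j ∈ Finset.range (2 ^ k),
    ∑ l ∈ Finset.range (2 ^ k),
      M₀ (2 ^ k * p + i) (2 ^ k * q + j) * M₁ (2 ^ k * q + j) (2 ^ k * s + l)
        * M₂ (2 ^ k * s + l) (2 ^ k * p + i) * (sg k i * sg k j * sg k l)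

/-- block of a lattice function -/
def bm (k p q : ℕ) (M : ℕ → ℕ → ℝ) : Matrix (Ix k) (Ix k) ℝ :=
  fun i j => M (2 ^ k * p + val k i) (2 ^ k * q + val k j)

/-- the same block at scale `k+1`, with index type `Ix k ⊕ Ix k` -/
def bm' (k p q : ℕ) (M : ℕ → ℕ → ℝ) : Matrix (Ix k ⊕ Ix k) (Ix k ⊕ Ix k) ℝ := bm (k + 1) p q M

theorem blk_bm (k p q : ℕ) (M : ℕ → ℕ → ℝ) (a b : Bool) :
    blk (bm' k p q M) a b = bm k (2 * p + a.toNat) (2 * q + b.toNat) M := by
  have key : ∀ (a : Bool) (p : ℕ) (i : Ix k),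
      2 ^ (k + 1) * p + val (k + 1) (inj a i) = 2 ^ k * (2 * p + a.toNat) + val k i := by
    intro a p i
    cases a
    · change 2 ^ (k + 1) * p + val k i = _
      simp only [Bool.toNat_false]; ring
    · change 2 ^ (k + 1) * p + (2 ^ k + val k i) = _
      simp only [Bool.toNat_true]; ring
  ext i j
  change M (2 ^ (k + 1) * p + val (k + 1) (inj a i)) (2 ^ (k + 1) * q + val (k + 1) (inj b j)) = _
  rw [key, key]
  rfl

theorem rad_entry (k : ℕ) (i j : Ix k ⊕ Ix k) :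
    rad (Ix k) i j = if i = j then sg (k + 1) (val (k + 1) i) else 0 := by
  have hl : ∀ i : Ix k, sg (k + 1) (val (k + 1) (Sum.inl i)) = 1 := by
    intro i
    have := val_lt k i
    change (if 2 * val k i < 2 ^ (k + 1) then (1 : ℝ) else -1) = 1
    rw [if_pos]
    rw [pow_succ]; omega
  have hr : ∀ i : Ix k, sg (k + 1) (val (k + 1) (Sum.inr i)) = -1 := by
    intro i
    change (if 2 * (2 ^ k + val k i) < 2 ^ (k + 1) then (1 : ℝ) else -1) = -1
    rw [if_neg]
    rw [pow_succ]; omega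
  rcases i with i | i <;> rcases j with j | j
  · rw [hl]
    simp [rad, Matrix.one_apply]
  · simp [rad]
  · simp [rad]
  · rw [hr]
    simp only [rad, fromBlocks_apply₂₂, Matrix.neg_apply, Matrix.one_apply, Sum.inr.injEq]
    split_ifs <;> simp

theorem rad_diag (k : ℕ) :
    rad (Ix k) = Matrix.diagonal (fun i : Ix k ⊕ Ix k => sg (k + 1) (val (k + 1) i)) := by
  ext i j
  rw [rad_entry, Matrix.diagonal_apply]

theorem T3_eq_sum {n : Type*} [Fintype n] [DecidableEq n] (d : n → ℝ) (F₀ F₁ F₂ : Matrix n n ℝ) :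
    T3 (Matrix.diagonal d) F₀ F₁ F₂
      = ∑ i, ∑ j, ∑ l, F₀ i j * F₁ j l * F₂ l i * (d i * d j * d l) := by
  have h : ∀ i, (Matrix.diagonal d * F₀ * Matrix.diagonal d * F₁ * Matrix.diagonal d * F₂) i i
      = ∑ j, ∑ l, F₀ i j * F₁ j l * F₂ l i * (d i * d j * d l) := by
    intro i
    rw [Matrix.mul_apply, Finset.sum_comm]
    refine Finset.sum_congr rfl (fun l _ => ?_)
    rw [Matrix.mul_diagonal, Matrix.mul_apply, Finset.sum_mul, Finset.sum_mul]
    refine Finset.sum_congr rfl (fun j _ => ?_)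
    rw [Matrix.mul_diagonal, Matrix.diagonal_mul]
    ring
  rw [T3, Matrix.trace]
  exact Finset.sum_congr rfl (fun i _ => h i)

theorem latL_eq (k p q s : ℕ) (M₀ M₁ M₂ : ℕ → ℕ → ℝ) :
    latL (k + 1) p q s M₀ M₁ M₂
      = ((2 : ℝ) ^ (k + 1))⁻¹ * T3 (rad (Ix k)) (bm' k p q M₀) (bm' k q s M₁) (bm' k s p M₂) := by
  rw [rad_diag, T3_eq_sum, latL]
  congr 1
  rw [← sum_val (k + 1)]
  change ∑ i : Ix k ⊕ Ix k, _ = _
  refine Finset.sum_congr rfl (fun i _ => ?_)
  rw [← sum_val (k + 1)]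
  change ∑ j : Ix k ⊕ Ix k, _ = _
  refine Finset.sum_congr rfl (fun j _ => ?_)
  rw [← sum_val (k + 1)]
  rfl

theorem xor_double (p q : ℕ) (a b : Bool) :
    (2 * p + a.toNat) ^^^ (2 * q + b.toNat) = 2 * (p ^^^ q) + (xor a b).toNat := by
  have hdiv : ∀ (x : ℕ) (c : Bool), (2 * x + c.toNat) / 2 = x := by
    intro x c
    have : c.toNat ≤ 1 := Bool.toNat_le c
    omega
  apply Nat.eq_of_testBit_eq
  intro i
  cases i with
  | zero => cases a <;> cases b <;> simp [Nat.testBit_zero, Nat.add_mod]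
  | succ i =>
    rw [Nat.testBit_xor, Nat.testBit_succ, Nat.testBit_succ, Nat.testBit_succ, hdiv, hdiv, hdiv,
      Nat.testBit_xor]

theorem sum_double (N : ℕ) (f : ℕ → ℝ) :
    ∑ p ∈ Finset.range (2 * N), f p = ∑ p ∈ Finset.range N, (f (2 * p) + f (2 * p + 1)) := by
  induction N with
  | zero => simp
  | succ N ih =>
    rw [Finset.sum_range_succ, ← ih, show 2 * (N + 1) = 2 * N + 1 + 1 by ring,
      Finset.sum_range_succ, Finset.sum_range_succ]
    ring

/-- total energy at scale `k` of the lattice functions on `[0, 2^n)²` -/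
noncomputable def SS (n : ℕ) (s : ℝ) (N : ℕ) (M₀ M₁ M₂ : ℕ → ℕ → ℝ) (k : ℕ) : ℝ :=
  (4 : ℝ) ^ k * ∑ p ∈ Finset.range (2 ^ (n - k)), ∑ q ∈ Finset.range (2 ^ (n - k)),
    Btot k s N (bm k p q M₀) (bm k q (p ^^^ q) M₁) (bm k (p ^^^ q) p M₂)

/-- total error at scale `k+1` -/
noncomputable def EE (n : ℕ) (s : ℝ) (N : ℕ) (M₀ M₁ M₂ : ℕ → ℕ → ℝ) (k : ℕ) : ℝ :=
  ∑ p ∈ Finset.range (2 ^ (n - (k + 1))), ∑ q ∈ Finset.range (2 ^ (n - (k + 1))),
    ((2 : ℝ) ^ (k + 1))⁻¹ * err (k + 1) (rad (Ix k)) s N (bm' k p q M₀) (bm' k q (p ^^^ q) M₁)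
      (bm' k (p ^^^ q) p M₂)

theorem scale_step (n : ℕ) {s : ℝ} (hs : 0 < s) (N : ℕ) (M₀ M₁ M₂ : ℕ → ℕ → ℝ) {k : ℕ}
    (hk : k + 1 ≤ n) :
    ∑ p ∈ Finset.range (2 ^ (n - (k + 1))), ∑ q ∈ Finset.range (2 ^ (n - (k + 1))),
      |latL (k + 1) p q (p ^^^ q) M₀ M₁ M₂|
    ≤ EE n s N M₀ M₁ M₂ k + SS n s N M₀ M₁ M₂ k - SS n s N M₀ M₁ M₂ (k + 1) := by
  have hpt : ∀ p q : ℕ, |latL (k + 1) p q (p ^^^ q) M₀ M₁ M₂|
      ≤ ((2 : ℝ) ^ (k + 1))⁻¹ * err (k + 1) (rad (Ix k)) s N (bm' k p q M₀)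
          (bm' k q (p ^^^ q) M₁) (bm' k (p ^^^ q) p M₂)
        + (4 : ℝ) ^ k * (∑ a : Bool, ∑ b : Bool,
          Btot k s N (bm k (2 * p + a.toNat) (2 * q + b.toNat) M₀)
            (bm k (2 * q + b.toNat) ((2 * p + a.toNat) ^^^ (2 * q + b.toNat)) M₁)
            (bm k ((2 * p + a.toNat) ^^^ (2 * q + b.toNat)) (2 * p + a.toNat) M₂))
        - (4 : ℝ) ^ (k + 1) * Btot (k + 1) s N (bm (k + 1) p q M₀) (bm (k + 1) q (p ^^^ q) M₁)
            (bm (k + 1) (p ^^^ q) p M₂) := by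
    intro p q
    have h := T3_le k hs N (bm' k p q M₀) (bm' k q (p ^^^ q) M₁) (bm' k (p ^^^ q) p M₂)
    rw [latL_eq, abs_mul, abs_of_pos (show (0 : ℝ) < ((2 : ℝ) ^ (k + 1))⁻¹ by positivity)]
    have e48 : ((2 : ℝ) ^ (k + 1))⁻¹ = (4 : ℝ) ^ (k + 1) * ((8 : ℝ) ^ (k + 1))⁻¹ := by
      have : (8 : ℝ) ^ (k + 1) = (4 : ℝ) ^ (k + 1) * (2 : ℝ) ^ (k + 1) := by
        rw [← mul_pow]; norm_num
      rw [this]; field_simp
    simp only [blk_bm] at h
    simp only [xor_double]
    have h4 : (0 : ℝ) ≤ (4 : ℝ) ^ (k + 1) := by positivity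
    have h5 := mul_le_mul_of_nonneg_left h h4
    rw [e48]
    have e4 : (4 : ℝ) ^ (k + 1) = 4 * 4 ^ k := by ring
    have hB : Btot (k + 1) s N (bm' k p q M₀) (bm' k q (p ^^^ q) M₁) (bm' k (p ^^^ q) p M₂)
      = Btot (k + 1) s N (bm (k + 1) p q M₀) (bm (k + 1) q (p ^^^ q) M₁)
            (bm (k + 1) (p ^^^ q) p M₂) := rfl
    rw [hB] at h5
    refine (le_of_eq (by ring)).trans (h5.trans (le_of_eq ?_))
    rw [e4]; ring
  refine (Finset.sum_le_sum (fun p _ => Finset.sum_le_sum (fun q _ => hpt p q))).trans ?_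
  simp only [Finset.sum_sub_distrib, Finset.sum_add_distrib]
  have hS : ∑ p ∈ Finset.range (2 ^ (n - (k + 1))), ∑ q ∈ Finset.range (2 ^ (n - (k + 1))),
      (4 : ℝ) ^ k * (∑ a : Bool, ∑ b : Bool,
          Btot k s N (bm k (2 * p + a.toNat) (2 * q + b.toNat) M₀)
            (bm k (2 * q + b.toNat) ((2 * p + a.toNat) ^^^ (2 * q + b.toNat)) M₁)
            (bm k ((2 * p + a.toNat) ^^^ (2 * q + b.toNat)) (2 * p + a.toNat) M₂))
      = SS n s N M₀ M₁ M₂ k := by
    rw [SS]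
    have hnk : 2 ^ (n - k) = 2 * 2 ^ (n - (k + 1)) := by
      rw [← pow_succ']; congr 1; omega
    rw [hnk, sum_double, Finset.mul_sum]
    refine Finset.sum_congr rfl (fun p _ => ?_)
    rw [sum_double, sum_double, ← Finset.sum_add_distrib, Finset.mul_sum]
    refine Finset.sum_congr rfl (fun q _ => ?_)
    simp only [Fintype.sum_bool, Bool.toNat_true, Bool.toNat_false, add_zero]
    ring
  rw [hS]
  rw [EE]
  have hS2 : ∑ p ∈ Finset.range (2 ^ (n - (k + 1))), ∑ q ∈ Finset.range (2 ^ (n - (k + 1))),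
      (4 : ℝ) ^ (k + 1) * Btot (k + 1) s N (bm (k + 1) p q M₀) (bm (k + 1) q (p ^^^ q) M₁)
            (bm (k + 1) (p ^^^ q) p M₂) = SS n s N M₀ M₁ M₂ (k + 1) := by
    rw [SS, Finset.mul_sum]
    refine Finset.sum_congr rfl (fun p _ => ?_)
    rw [Finset.mul_sum]
  rw [hS2]

theorem sum_xor (n : ℕ) (f : ℕ → ℝ) {q : ℕ} (hq : q < 2 ^ n) :
    ∑ p ∈ Finset.range (2 ^ n), f (p ^^^ q) = ∑ p ∈ Finset.range (2 ^ n), f p := by
  refine Finset.sum_nbij' (fun p => p ^^^ q) (fun p => p ^^^ q) ?_ ?_ ?_ ?_ ?_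
  · intro p hp
    exact Finset.mem_range.mpr (Nat.xor_lt_two_pow (Finset.mem_range.mp hp) hq)
  · intro p hp
    exact Finset.mem_range.mpr (Nat.xor_lt_two_pow (Finset.mem_range.mp hp) hq)
  · intro p _; simp [Nat.xor_assoc]
  · intro p _; simp [Nat.xor_assoc]
  · intro p _; rfl

theorem SS_zero_le (n : ℕ) {s : ℝ} (hs : 0 < s) (N : ℕ) (M₀ M₁ M₂ : ℕ → ℕ → ℝ) :
    SS n s N M₀ M₁ M₂ 0 ≤ (609 / 2) * ∑ i ∈ Finset.range (2 ^ n), ∑ j ∈ Finset.range (2 ^ n),
      (|M₀ i j| ^ 3 + |M₁ i j| ^ 3 + |M₂ i j| ^ 3) := by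
  have hpt : ∀ p q : ℕ, Btot 0 s N (bm 0 p q M₀) (bm 0 q (p ^^^ q) M₁) (bm 0 (p ^^^ q) p M₂)
      ≤ (609 / 2) * (|M₀ p q| ^ 3 + |M₁ q (p ^^^ q)| ^ 3 + |M₂ (p ^^^ q) p| ^ 3) := by
    intro p q
    have h := Btot_unit_le hs N (bm 0 p q M₀ : Matrix Unit Unit ℝ)
      (bm 0 q (p ^^^ q) M₁ : Matrix Unit Unit ℝ) (bm 0 (p ^^^ q) p M₂ : Matrix Unit Unit ℝ)
    have e : ∀ (a b : ℕ) (M : ℕ → ℕ → ℝ), (bm 0 a b M : Matrix Unit Unit ℝ) () () = M a b := by
      intro a b M
      change M (2 ^ 0 * a + 0) (2 ^ 0 * b + 0) = M a b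
      simp
    rw [e, e, e] at h
    exact h
  rw [SS, pow_zero, one_mul, Nat.sub_zero]
  refine (Finset.sum_le_sum (fun p _ => Finset.sum_le_sum (fun q _ => hpt p q))).trans ?_
  simp only [← Finset.mul_sum]
  refine mul_le_mul_of_nonneg_left (le_of_eq ?_) (by norm_num)
  simp only [Finset.sum_add_distrib]
  congr 1
  · congr 1
    rw [Finset.sum_comm]
    refine Finset.sum_congr rfl (fun q hq => ?_)
    exact sum_xor n (fun t => |M₁ q t| ^ 3) (Finset.mem_range.mp hq)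
  · rw [Finset.sum_comm]
    have h2 : ∀ q ∈ Finset.range (2 ^ n), ∑ p ∈ Finset.range (2 ^ n), |M₂ (p ^^^ q) p| ^ 3
        = ∑ t ∈ Finset.range (2 ^ n), |M₂ t (t ^^^ q)| ^ 3 := by
      intro q hq
      have := sum_xor n (fun t => |M₂ t (t ^^^ q)| ^ 3) (Finset.mem_range.mp hq)
      rw [← this]
      refine Finset.sum_congr rfl (fun p _ => ?_)
      simp [Nat.xor_assoc]
    rw [Finset.sum_congr rfl h2, Finset.sum_comm]
    refine Finset.sum_congr rfl (fun t ht => ?_)
    have := sum_xor n (fun u => |M₂ t u| ^ 3) (Finset.mem_range.mp ht)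
    rw [← this]
    refine Finset.sum_congr rfl (fun q _ => ?_)
    rw [Nat.xor_comm]

/-- The lattice theorem. -/
theorem lattice' (n : ℕ) (M₀ M₁ M₂ : ℕ → ℕ → ℝ) :
    ∑ k ∈ Finset.range n, ∑ p ∈ Finset.range (2 ^ (n - (k + 1))),
      ∑ q ∈ Finset.range (2 ^ (n - (k + 1))), |latL (k + 1) p q (p ^^^ q) M₀ M₁ M₂|
    ≤ (609 / 2) * ∑ i ∈ Finset.range (2 ^ n), ∑ j ∈ Finset.range (2 ^ n),
      (|M₀ i j| ^ 3 + |M₁ i j| ^ 3 + |M₂ i j| ^ 3) := by
  set R := (609 / 2) * ∑ i ∈ Finset.range (2 ^ n), ∑ j ∈ Finset.range (2 ^ n),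
      (|M₀ i j| ^ 3 + |M₁ i j| ^ 3 + |M₂ i j| ^ 3) with hR
  have hfin : ∀ J : ℕ, ∑ k ∈ Finset.range n, ∑ p ∈ Finset.range (2 ^ (n - (k + 1))),
      ∑ q ∈ Finset.range (2 ^ (n - (k + 1))), |latL (k + 1) p q (p ^^^ q) M₀ M₁ M₂|
      ≤ (∑ k ∈ Finset.range n, EE n ((2 : ℝ) ^ J)⁻¹ (2 * J) M₀ M₁ M₂ k) + R := by
    intro J
    have hs : (0 : ℝ) < ((2 : ℝ) ^ J)⁻¹ := by positivity
    have h1 := Finset.sum_le_sum (fun k (hk : k ∈ Finset.range n) =>
      scale_step n hs (2 * J) M₀ M₁ M₂ (Nat.succ_le_of_lt (Finset.mem_range.mp hk)))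
    refine h1.trans ?_
    have h2 : ∑ k ∈ Finset.range n, (EE n ((2 : ℝ) ^ J)⁻¹ (2 * J) M₀ M₁ M₂ k
        + SS n ((2 : ℝ) ^ J)⁻¹ (2 * J) M₀ M₁ M₂ k - SS n ((2 : ℝ) ^ J)⁻¹ (2 * J) M₀ M₁ M₂ (k + 1))
        = (∑ k ∈ Finset.range n, EE n ((2 : ℝ) ^ J)⁻¹ (2 * J) M₀ M₁ M₂ k)
          - (SS n ((2 : ℝ) ^ J)⁻¹ (2 * J) M₀ M₁ M₂ n - SS n ((2 : ℝ) ^ J)⁻¹ (2 * J) M₀ M₁ M₂ 0) := by
      rw [← Finset.sum_range_sub, ← Finset.sum_sub_distrib]
      refine Finset.sum_congr rfl (fun k _ => ?_)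
      ring
    rw [h2]
    have h3 := SS_zero_le n hs (2 * J) M₀ M₁ M₂
    have h4 : 0 ≤ SS n ((2 : ℝ) ^ J)⁻¹ (2 * J) M₀ M₁ M₂ n := by
      rw [SS]
      exact mul_nonneg (by positivity) (Finset.sum_nonneg fun p _ => Finset.sum_nonneg fun q _ =>
        Btot_nonneg n hs _ _ _ _)
    linarith
  have hlim : Tendsto (fun J : ℕ => (∑ k ∈ Finset.range n,
      EE n ((2 : ℝ) ^ J)⁻¹ (2 * J) M₀ M₁ M₂ k) + R) atTop (𝓝 (0 + R)) := by
    refine Tendsto.add_const R ?_
    have : Tendsto (fun J : ℕ => ∑ k ∈ Finset.range n,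
      EE n ((2 : ℝ) ^ J)⁻¹ (2 * J) M₀ M₁ M₂ k) atTop (𝓝 (∑ k ∈ Finset.range n, 0)) := by
      refine tendsto_finsetSum _ (fun k _ => ?_)
      have h5 : Tendsto (fun J : ℕ => EE n ((2 : ℝ) ^ J)⁻¹ (2 * J) M₀ M₁ M₂ k) atTop
          (𝓝 (∑ p ∈ Finset.range (2 ^ (n - (k + 1))), ∑ q ∈ Finset.range (2 ^ (n - (k + 1))),
            ((2 : ℝ) ^ (k + 1))⁻¹ * 0)) := by
        refine tendsto_finsetSum _ (fun p _ => tendsto_finsetSum _ (fun q _ => ?_))
        exact (err_tendsto (k + 1) (rad (Ix k)) _ _ _).const_mul _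
      simpa using h5
    simpa using this
  rw [zero_add] at hlim
  exact ge_of_tendsto' hlim hfin

/-- The lattice theorem. -/
theorem lattice (n : ℕ) (M₀ M₁ M₂ : ℕ → ℕ → ℝ) :
    ∑ k ∈ Finset.Icc 1 n, ∑ p ∈ Finset.range (2 ^ (n - k)),
      ∑ q ∈ Finset.range (2 ^ (n - k)), |latL k p q (p ^^^ q) M₀ M₁ M₂|
    ≤ (609 / 2) * ∑ i ∈ Finset.range (2 ^ n), ∑ j ∈ Finset.range (2 ^ n),
      (|M₀ i j| ^ 3 + |M₁ i j| ^ 3 + |M₂ i j| ^ 3) := by
  have h := lattice' n M₀ M₁ M₂
  have e : Finset.Icc 1 n = (Finset.range n).map ⟨(· + 1), add_left_injective 1⟩ := by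
    ext x
    simp only [Finset.mem_Icc, Finset.mem_map, Finset.mem_range, Function.Embedding.coeFn_mk]
    constructor
    · rintro ⟨h1, h2⟩
      exact ⟨x - 1, by omega, by omega⟩
    · rintro ⟨y, hy, rfl⟩
      omega
  rw [e, Finset.sum_map]
  exact h

end Vale.Agent.P075
end
end

section

section

set_option linter.unusedSectionVars false
set_option linter.unusedVariables false

namespace Vale.Agent.P075

open MeasureTheory Set

/-- the half-open unit interval -/
def UI : Set ℝ := Set.Ico (0 : ℝ) 1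

/-- a cell of size `d` -/
def cell (d c : ℝ) : Set ℝ := Set.Ico (d * c) (d * (c + 1))

theorem mem_cell_iff {d : ℝ} (hd : 0 < d) (c t : ℝ) : d * (c + t) ∈ cell d c ↔ t ∈ UI := by
  unfold cell UI
  simp only [Set.mem_Ico]
  constructor
  · rintro ⟨h1, h2⟩
    constructor
    · have := (mul_le_mul_iff_right₀ hd).mp h1; linarith
    · have := (mul_lt_mul_iff_right₀ hd).mp h2; linarith
  · rintro ⟨h1, h2⟩
    constructor
    · exact (mul_le_mul_iff_right₀ hd).mpr (by linarith)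
    · exact (mul_lt_mul_iff_right₀ hd).mpr (by linarith)

theorem measurableSet_cell (d c : ℝ) : MeasurableSet (cell d c) := measurableSet_Ico
theorem measurableSet_UI : MeasurableSet UI := measurableSet_Ico

theorem box3 {d : ℝ} (hd : 0 < d) (a b c : ℝ) (g : ℝ × ℝ × ℝ → ℝ) :
    ∫ x in cell d a ×ˢ cell d b ×ˢ cell d c, g x
      = d ^ 3 * ∫ x in UI ×ˢ UI ×ˢ UI, g (d * (a + x.1), d * (b + x.2.1), d * (c + x.2.2)) := by
  have hm1 : MeasurableSet (cell d a ×ˢ cell d b ×ˢ cell d c) :=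
    (measurableSet_cell d a).prod ((measurableSet_cell d b).prod (measurableSet_cell d c))
  have hm2 : MeasurableSet (UI ×ˢ UI ×ˢ UI) :=
    measurableSet_UI.prod (measurableSet_UI.prod measurableSet_UI)
  rw [← integral_indicator hm1, ← integral_indicator hm2]
  set f : ℝ × ℝ × ℝ → ℝ := (cell d a ×ˢ cell d b ×ˢ cell d c).indicator g with hf
  have i2 : (volume : Measure (ℝ × ℝ)).IsAddHaarMeasure :=
    Measure.prod.instIsAddHaarMeasure volume volume
  have i3 : (volume : Measure (ℝ × ℝ × ℝ)).IsAddHaarMeasure :=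
    Measure.prod.instIsAddHaarMeasure volume volume
  have h1 := Measure.integral_comp_smul (volume : Measure (ℝ × ℝ × ℝ)) f d
  have h2 : ∫ x, f (d • ((a, b, c) + x)) = ∫ x, f (d • x) :=
    integral_add_left_eq_self (fun x => f (d • x)) (a, b, c)
  have h3 : ∀ x : ℝ × ℝ × ℝ, f (d • ((a, b, c) + x)) = (UI ×ˢ UI ×ˢ UI).indicator
      (fun x => g (d * (a + x.1), d * (b + x.2.1), d * (c + x.2.2))) x := by
    intro x
    have e : d • ((a, b, c) + x) = (d * (a + x.1), d * (b + x.2.1), d * (c + x.2.2)) := by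
      ext <;> simp <;> ring
    rw [e, hf]
    by_cases hx : x ∈ UI ×ˢ UI ×ˢ UI
    · rw [indicator_of_mem hx, indicator_of_mem]
      simp only [Set.mem_prod, mem_cell_iff hd] at hx ⊢
      exact hx
    · rw [indicator_of_notMem hx, indicator_of_notMem]
      intro h
      apply hx
      simp only [Set.mem_prod, mem_cell_iff hd] at h ⊢
      exact h
  have hfr : Module.finrank ℝ (ℝ × ℝ × ℝ) = 3 := by simp
  rw [hfr] at h1
  have h4 : ∫ x, (UI ×ˢ UI ×ˢ UI).indicator
      (fun x => g (d * (a + x.1), d * (b + x.2.1), d * (c + x.2.2))) x = (d ^ 3)⁻¹ * ∫ x, f x := by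
    rw [← integral_congr_ae (Filter.Eventually.of_forall h3), h2, h1, smul_eq_mul,
      abs_of_pos (by positivity)]
  rw [h4]
  field_simp

theorem box2 {d : ℝ} (hd : 0 < d) (a b : ℝ) (g : ℝ × ℝ → ℝ) :
    ∫ x in cell d a ×ˢ cell d b, g x
      = d ^ 2 * ∫ x in UI ×ˢ UI, g (d * (a + x.1), d * (b + x.2)) := by
  have hm1 : MeasurableSet (cell d a ×ˢ cell d b) :=
    (measurableSet_cell d a).prod (measurableSet_cell d b)
  have hm2 : MeasurableSet (UI ×ˢ UI) := measurableSet_UI.prod measurableSet_UI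
  rw [← integral_indicator hm1, ← integral_indicator hm2]
  set f : ℝ × ℝ → ℝ := (cell d a ×ˢ cell d b).indicator g with hf
  have i2 : (volume : Measure (ℝ × ℝ)).IsAddHaarMeasure :=
    Measure.prod.instIsAddHaarMeasure volume volume
  have h1 := Measure.integral_comp_smul (volume : Measure (ℝ × ℝ)) f d
  have h2 : ∫ x, f (d • ((a, b) + x)) = ∫ x, f (d • x) :=
    integral_add_left_eq_self (fun x => f (d • x)) (a, b)
  have h3 : ∀ x : ℝ × ℝ, f (d • ((a, b) + x)) = (UI ×ˢ UI).indicator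
      (fun x => g (d * (a + x.1), d * (b + x.2))) x := by
    intro x
    have e : d • ((a, b) + x) = (d * (a + x.1), d * (b + x.2)) := by
      ext <;> simp <;> ring
    rw [e, hf]
    by_cases hx : x ∈ UI ×ˢ UI
    · rw [indicator_of_mem hx, indicator_of_mem]
      simp only [Set.mem_prod, mem_cell_iff hd] at hx ⊢
      exact hx
    · rw [indicator_of_notMem hx, indicator_of_notMem]
      intro h
      apply hx
      simp only [Set.mem_prod, mem_cell_iff hd] at h ⊢
      exact h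
  have hfr : Module.finrank ℝ (ℝ × ℝ) = 2 := by simp
  rw [hfr] at h1
  have h4 : ∫ x, (UI ×ˢ UI).indicator
      (fun x => g (d * (a + x.1), d * (b + x.2))) x = (d ^ 2)⁻¹ * ∫ x, f x := by
    rw [← integral_congr_ae (Filter.Eventually.of_forall h3), h2, h1, smul_eq_mul,
      abs_of_pos (by positivity)]
  rw [h4]
  field_simp

theorem cell_disjoint {d : ℝ} (hd : 0 < d) {a b : ℕ} (h : a ≠ b) :
    Disjoint (cell d a) (cell d b) := by
  have key : ∀ {a b : ℕ}, a < b → Disjoint (cell d a) (cell d b) := by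
    intro a b hab
    rw [Set.disjoint_left]
    intro x h1 h2
    have h3 : (a : ℝ) + 1 ≤ b := by exact_mod_cast hab
    have h4 : d * ((a : ℝ) + 1) ≤ d * b := by gcongr
    have := h1.2
    have := h2.1
    linarith
  rcases lt_or_gt_of_ne h with h | h
  · exact key h
  · exact (key h).symm

/-- an interval of consecutive cells -/
theorem iUnion_cell {d : ℝ} (hd : 0 < d) (a N : ℕ) :
    ⋃ i ∈ Finset.range N, cell d ((a + i : ℕ) : ℝ) = Set.Ico (d * a) (d * (a + N)) := by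
  ext x
  simp only [Set.mem_iUnion, Finset.mem_range, exists_prop, cell, Set.mem_Ico]
  constructor
  · rintro ⟨i, hi, h1, h2⟩
    have h3 : ((i : ℝ) + 1) ≤ N := by exact_mod_cast hi
    push_cast at h1 h2
    constructor
    · refine le_trans ?_ h1
      have : (0 : ℝ) ≤ i := Nat.cast_nonneg i
      gcongr; linarith
    · refine lt_of_lt_of_le h2 ?_
      gcongr ?_ * ?_
      linarith
  · rintro ⟨h1, h2⟩
    have h3 : (a : ℝ) ≤ x / d := by rw [le_div_iff₀ hd]; linarith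
    have h4 : x / d < a + N := by rw [div_lt_iff₀ hd]; linarith
    have h5 : 0 ≤ x / d := le_trans (Nat.cast_nonneg a) h3
    set f := ⌊x / d⌋₊ with hf
    have h6 : (f : ℝ) ≤ x / d := Nat.floor_le h5
    have h7 : x / d < f + 1 := Nat.lt_floor_add_one _
    have h8 : a ≤ f := Nat.le_floor h3
    have h9 : f < a + N := by
      have : (f : ℝ) < ((a + N : ℕ) : ℝ) := by push_cast; linarith
      exact_mod_cast this
    refine ⟨f - a, by omega, ?_, ?_⟩
    · have : a + (f - a) = f := by omega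
      rw [this]
      rw [le_div_iff₀ hd] at h6
      linarith
    · have : a + (f - a) = f := by omega
      rw [this]
      rw [div_lt_iff₀ hd] at h7
      linarith

theorem dyad_eq (K : ℤ) (m p : ℕ) :
    dyad (K + m) p = ⋃ i ∈ Finset.range (2 ^ m), cell ((2 : ℝ) ^ K) ((2 ^ m * p + i : ℕ) : ℝ) := by
  rw [iUnion_cell (by positivity), dyad]
  have h : (2 : ℝ) ^ (K + (m : ℤ)) = (2 : ℝ) ^ K * 2 ^ m := by
    rw [zpow_add₀ (by norm_num)]; simp
  rw [h]
  push_cast
  congr 1 <;> ring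

theorem mem_dyad_iff (K : ℤ) (m n c : ℕ) (t : ℝ) (ht : t ∈ UI) :
    (2 : ℝ) ^ K * ((c : ℝ) + t) ∈ dyad (K + m) n ↔ 2 ^ m * n ≤ c ∧ c < 2 ^ m * n + 2 ^ m := by
  rw [dyad_eq]
  simp only [Set.mem_iUnion, Finset.mem_range, exists_prop]
  have hd : (0 : ℝ) < (2 : ℝ) ^ K := by positivity
  have h1 : (2 : ℝ) ^ K * ((c : ℝ) + t) ∈ cell ((2 : ℝ) ^ K) (c : ℝ) := (mem_cell_iff hd _ _).mpr ht
  constructor
  · rintro ⟨i, hi, h⟩
    by_cases hne : c = 2 ^ m * n + i
    · omega
    · exact absurd h (Set.disjoint_left.mp (cell_disjoint hd hne) h1)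
  · rintro ⟨h2, h3⟩
    refine ⟨c - 2 ^ m * n, by omega, ?_⟩
    have : 2 ^ m * n + (c - 2 ^ m * n) = c := by omega
    rw [this]; exact h1

theorem haar_cell (K : ℤ) (m p i : ℕ) (hi : i < 2 ^ (m + 1)) (t : ℝ) (ht : t ∈ UI) :
    haar (K + (m + 1 : ℕ)) p ((2 : ℝ) ^ K * (((2 ^ (m + 1) * p + i : ℕ) : ℝ) + t))
      = sg (m + 1) i := by
  have e : K + ((m + 1 : ℕ) : ℤ) - 1 = K + (m : ℤ) := by push_cast; ring
  rw [haar, e, sg]
  have hp : 2 ^ (m + 1) = 2 * 2 ^ m := by rw [pow_succ]; ring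
  have hpos : 0 < 2 ^ m := by positivity
  by_cases h : 2 * i < 2 ^ (m + 1)
  · rw [if_pos h, indicator_of_mem, indicator_of_notMem, sub_zero]
    · rw [mem_dyad_iff _ _ _ _ _ ht]
      intro hh
      have := hh.1
      nlinarith
    · rw [mem_dyad_iff _ _ _ _ _ ht]
      constructor
      · nlinarith
      · have : i < 2 ^ m := by omega
        nlinarith
  · rw [if_neg h, indicator_of_notMem, indicator_of_mem, zero_sub]
    · rw [mem_dyad_iff _ _ _ _ _ ht]
      constructor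
      · have : 2 ^ m ≤ i := by omega
        nlinarith
      · nlinarith
    · rw [mem_dyad_iff _ _ _ _ _ ht]
      intro hh
      have h1 := hh.2
      have : 2 ^ m ≤ i := by omega
      nlinarith

end Vale.Agent.P075
end
end

section

section

set_option linter.unusedSectionVars false
set_option linter.unusedVariables false

namespace Vale.Agent.P075

open MeasureTheory Set

theorem integral_prod_union {α : Type*} {A B C : ℕ → Set ℝ} (N : ℕ)
    (hA : ∀ i, MeasurableSet (A i)) (hB : ∀ i, MeasurableSet (B i)) (hC : ∀ i, MeasurableSet (C i))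
    (dA : ∀ i j, i ≠ j → Disjoint (A i) (A j)) (dB : ∀ i j, i ≠ j → Disjoint (B i) (B j))
    (dC : ∀ i j, i ≠ j → Disjoint (C i) (C j)) (g : ℝ × ℝ × ℝ → ℝ)
    (hg : IntegrableOn g ((⋃ i ∈ Finset.range N, A i) ×ˢ (⋃ i ∈ Finset.range N, B i) ×ˢ
      (⋃ i ∈ Finset.range N, C i))) :
    ∫ x in (⋃ i ∈ Finset.range N, A i) ×ˢ (⋃ i ∈ Finset.range N, B i) ×ˢ
      (⋃ i ∈ Finset.range N, C i), g x
    = ∑ i ∈ Finset.range N, ∑ j ∈ Finset.range N, ∑ l ∈ Finset.range N,
        ∫ x in A i ×ˢ B j ×ˢ C l, g x := by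
  have hset : (⋃ i ∈ Finset.range N, A i) ×ˢ (⋃ i ∈ Finset.range N, B i) ×ˢ
      (⋃ i ∈ Finset.range N, C i)
      = ⋃ t ∈ Finset.range N ×ˢ (Finset.range N ×ˢ Finset.range N),
        A t.1 ×ˢ B t.2.1 ×ˢ C t.2.2 := by
    ext ⟨x, y, z⟩
    simp only [Set.mem_prod, Set.mem_iUnion, Finset.mem_product, Finset.mem_range, exists_prop,
      Prod.exists]
    constructor
    · rintro ⟨⟨i, hi, hx⟩, ⟨j, hj, hy⟩, ⟨l, hl, hz⟩⟩
      exact ⟨i, j, l, ⟨hi, hj, hl⟩, hx, hy, hz⟩
    · rintro ⟨i, j, l, ⟨hi, hj, hl⟩, hx, hy, hz⟩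
      exact ⟨⟨i, hi, hx⟩, ⟨j, hj, hy⟩, ⟨l, hl, hz⟩⟩
  rw [hset, integral_biUnion_finset]
  · rw [Finset.sum_product]
    refine Finset.sum_congr rfl (fun i _ => ?_)
    rw [Finset.sum_product]
  · intro t _
    exact (hA _).prod ((hB _).prod (hC _))
  · intro t _ t' _ hne
    rw [Function.onFun, Set.disjoint_left]
    rintro ⟨x, y, z⟩ h1 h2
    simp only [Set.mem_prod] at h1 h2
    apply hne
    have e1 : t.1 = t'.1 := by
      by_contra h; exact Set.disjoint_left.mp (dA _ _ h) h1.1 h2.1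
    have e2 : t.2.1 = t'.2.1 := by
      by_contra h; exact Set.disjoint_left.mp (dB _ _ h) h1.2.1 h2.2.1
    have e3 : t.2.2 = t'.2.2 := by
      by_contra h; exact Set.disjoint_left.mp (dC _ _ h) h1.2.2 h2.2.2
    exact Prod.ext e1 (Prod.ext e2 e3)
  · intro t ht
    refine hg.mono_set ?_
    rw [hset]
    exact Set.subset_biUnion_of_mem (u := fun t : ℕ × ℕ × ℕ => A t.1 ×ˢ B t.2.1 ×ˢ C t.2.2)
      (Finset.mem_coe.mpr ht)

theorem integral_prod_union2 {A B : ℕ → Set ℝ} (N : ℕ)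
    (hA : ∀ i, MeasurableSet (A i)) (hB : ∀ i, MeasurableSet (B i))
    (dA : ∀ i j, i ≠ j → Disjoint (A i) (A j)) (dB : ∀ i j, i ≠ j → Disjoint (B i) (B j))
    (g : ℝ × ℝ → ℝ)
    (hg : IntegrableOn g ((⋃ i ∈ Finset.range N, A i) ×ˢ (⋃ i ∈ Finset.range N, B i))) :
    ∫ x in (⋃ i ∈ Finset.range N, A i) ×ˢ (⋃ i ∈ Finset.range N, B i), g x
    = ∑ i ∈ Finset.range N, ∑ j ∈ Finset.range N, ∫ x in A i ×ˢ B j, g x := by
  have hset : (⋃ i ∈ Finset.range N, A i) ×ˢ (⋃ i ∈ Finset.range N, B i)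
      = ⋃ t ∈ Finset.range N ×ˢ Finset.range N, A t.1 ×ˢ B t.2 := by
    ext ⟨x, y⟩
    simp only [Set.mem_prod, Set.mem_iUnion, Finset.mem_product, Finset.mem_range, exists_prop,
      Prod.exists]
    constructor
    · rintro ⟨⟨i, hi, hx⟩, ⟨j, hj, hy⟩⟩
      exact ⟨i, j, ⟨hi, hj⟩, hx, hy⟩
    · rintro ⟨i, j, ⟨hi, hj⟩, hx, hy⟩
      exact ⟨⟨i, hi, hx⟩, ⟨j, hj, hy⟩⟩
  rw [hset, integral_biUnion_finset]
  · rw [Finset.sum_product]
  · intro t _
    exact (hA _).prod (hB _)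
  · intro t _ t' _ hne
    rw [Function.onFun, Set.disjoint_left]
    rintro ⟨x, y⟩ h1 h2
    simp only [Set.mem_prod] at h1 h2
    apply hne
    have e1 : t.1 = t'.1 := by
      by_contra h; exact Set.disjoint_left.mp (dA _ _ h) h1.1 h2.1
    have e2 : t.2 = t'.2 := by
      by_contra h; exact Set.disjoint_left.mp (dB _ _ h) h1.2 h2.2
    exact Prod.ext e1 e2
  · intro t ht
    refine hg.mono_set ?_
    rw [hset]
    exact Set.subset_biUnion_of_mem (u := fun t : ℕ × ℕ => A t.1 ×ˢ B t.2)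
      (Finset.mem_coe.mpr ht)

/-- sampled lattice function -/
noncomputable def MM (K : ℤ) (F : ℝ × ℝ → ℝ) (u v : ℝ) : ℕ → ℕ → ℝ :=
  fun i j => F ((2 : ℝ) ^ K * ((i : ℝ) + u), (2 : ℝ) ^ K * ((j : ℝ) + v))

/-- unit cube -/
def U3 : Set (ℝ × ℝ × ℝ) := UI ×ˢ UI ×ˢ UI
/-- unit square -/
def U2 : Set (ℝ × ℝ) := UI ×ˢ UI

theorem measurableSet_U3 : MeasurableSet U3 :=
  measurableSet_UI.prod (measurableSet_UI.prod measurableSet_UI)
theorem volume_UI : volume UI = 1 := by
  simp [UI]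

theorem volume_U2 : volume U2 = 1 := by
  rw [U2, Measure.volume_eq_prod, Measure.prod_prod, volume_UI, one_mul]

theorem volume_U3 : volume U3 = 1 := by
  rw [U3, Measure.volume_eq_prod, Measure.prod_prod, volume_UI]
  change 1 * volume U2 = 1
  rw [volume_U2, one_mul]

/-- bounded measurable functions are integrable on sets of finite measure -/
theorem bdd_integrableOn {α : Type*} [MeasurableSpace α] {μ : Measure α} {s : Set α}
    (hs : MeasurableSet s) (hμ : μ s < ⊤) {g : α → ℝ} (hg : Measurable g) {C : ℝ}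
    (hC : ∀ x, |g x| ≤ C) : IntegrableOn g s μ := by
  refine Measure.integrableOn_of_bounded (M := C) hμ.ne hg.aestronglyMeasurable ?_
  exact Filter.Eventually.of_forall (fun x => by rw [Real.norm_eq_abs]; exact hC x)

theorem measurable_haar (k : ℤ) (n : ℕ) : Measurable (haar k n) := by
  unfold haar
  exact ((measurable_const.indicator measurableSet_Ico).sub
    (measurable_const.indicator measurableSet_Ico))

theorem haar_abs_le (k : ℤ) (n : ℕ) (x : ℝ) : |haar k n x| ≤ 1 := by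
  unfold haar
  by_cases h1 : x ∈ dyad (k - 1) (2 * n)
  · have h2 : x ∉ dyad (k - 1) (2 * n + 1) := by
      intro h2
      have a := h1.2
      have b := h2.1
      push_cast at a b
      linarith
    rw [indicator_of_mem h1, indicator_of_notMem h2]; simp
  · rw [indicator_of_notMem h1]
    by_cases h2 : x ∈ dyad (k - 1) (2 * n + 1)
    · rw [indicator_of_mem h2]; simp
    · rw [indicator_of_notMem h2]; simp

theorem volume_dyad_lt (k : ℤ) (n : ℕ) : volume (dyad k n) < ⊤ := by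
  rw [dyad, Real.volume_Ico]; exact ENNReal.ofReal_lt_top

/-- integrand of `LI` -/
noncomputable def integrand (k : ℤ) (n : Fin 3 → ℕ) (F : Fin 3 → ℝ × ℝ → ℝ)
    (x : ℝ × ℝ × ℝ) : ℝ :=
  F 0 (x.1, x.2.1) * F 1 (x.2.1, x.2.2) * F 2 (x.2.2, x.1) *
      (haar k (n 0) x.1 * haar k (n 1) x.2.1 * haar k (n 2) x.2.2)

theorem measurable_integrand (k : ℤ) (n : Fin 3 → ℕ) {F : Fin 3 → ℝ × ℝ → ℝ}
    (hF : ∀ v, Measurable (F v)) : Measurable (integrand k n F) := by
  unfold integrand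
  have h0 := hF 0
  have h1 := hF 1
  have h2 := hF 2
  have a0 := measurable_haar k (n 0)
  have a1 := measurable_haar k (n 1)
  have a2 := measurable_haar k (n 2)
  fun_prop

theorem abs_mul3_le {a b c A : ℝ} (hA : 0 ≤ A) (ha : |a| ≤ A) (hb : |b| ≤ A) (hc : |c| ≤ A) :
    |a * b * c| ≤ A ^ 3 := by
  rw [abs_mul, abs_mul]
  calc |a| * |b| * |c| ≤ A * A * A := by gcongr
    _ = A ^ 3 := by ring

theorem integrand_abs_le (k : ℤ) (n : Fin 3 → ℕ) {F : Fin 3 → ℝ × ℝ → ℝ} {M : ℝ}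
    (hM0 : 0 ≤ M) (hM : ∀ v p, |F v p| ≤ M) (x : ℝ × ℝ × ℝ) : |integrand k n F x| ≤ M ^ 3 := by
  unfold integrand
  rw [abs_mul]
  have h1 := abs_mul3_le hM0 (hM 0 (x.1, x.2.1)) (hM 1 (x.2.1, x.2.2)) (hM 2 (x.2.2, x.1))
  have h2 := abs_mul3_le zero_le_one (haar_abs_le k (n 0) x.1) (haar_abs_le k (n 1) x.2.1)
    (haar_abs_le k (n 2) x.2.2)
  rw [one_pow] at h2
  calc _ ≤ M ^ 3 * 1 := by gcongr
    _ = _ := mul_one _

theorem LI_eq (K : ℤ) (m : ℕ) (n : Fin 3 → ℕ) {F : Fin 3 → ℝ × ℝ → ℝ}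
    (hF : ∀ v, Measurable (F v)) {M : ℝ} (hM0 : 0 ≤ M) (hM : ∀ v p, |F v p| ≤ M) :
    LI (K + (m + 1 : ℕ)) n F = ((2 : ℝ) ^ K) ^ 2 * ∫ x in U3,
      latL (m + 1) (n 0) (n 1) (n 2) (MM K (F 0) x.1 x.2.1) (MM K (F 1) x.2.1 x.2.2)
        (MM K (F 2) x.2.2 x.1) := by
  set k : ℤ := K + (m + 1 : ℕ) with hk
  set d : ℝ := (2 : ℝ) ^ K with hd
  have hdpos : 0 < d := by positivity
  have h1 : LI k n F = (2 : ℝ) ^ (-k) *
      ∫ x in dyad k (n 0) ×ˢ dyad k (n 1) ×ˢ dyad k (n 2), integrand k n F x := rfl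
  have hmeas := measurable_integrand k n hF
  have hbd := integrand_abs_le k n hM0 hM
  have hint : IntegrableOn (integrand k n F) (dyad k (n 0) ×ˢ dyad k (n 1) ×ˢ dyad k (n 2)) := by
    refine bdd_integrableOn (measurableSet_Ico.prod (measurableSet_Ico.prod measurableSet_Ico))
      ?_ hmeas hbd
    rw [Measure.volume_eq_prod, Measure.prod_prod, Measure.volume_eq_prod, Measure.prod_prod]
    exact ENNReal.mul_lt_top (volume_dyad_lt _ _)
      (ENNReal.mul_lt_top (volume_dyad_lt _ _) (volume_dyad_lt _ _))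
  have hdy : ∀ p : ℕ, dyad k p = ⋃ i ∈ Finset.range (2 ^ (m + 1)),
      cell d ((2 ^ (m + 1) * p + i : ℕ) : ℝ) := fun p => dyad_eq K (m + 1) p
  rw [h1, hdy, hdy, hdy]
  rw [hdy, hdy, hdy] at hint
  rw [integral_prod_union (α := ℝ) (2 ^ (m + 1)) (fun i => measurableSet_cell _ _)
    (fun i => measurableSet_cell _ _)
    (fun i => measurableSet_cell _ _)
    (fun i j hij => cell_disjoint hdpos (by omega)) (fun i j hij => cell_disjoint hdpos (by omega))
    (fun i j hij => cell_disjoint hdpos (by omega)) _ hint]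
  -- evaluate each box
  have hbox : ∀ i ∈ Finset.range (2 ^ (m + 1)), ∀ j ∈ Finset.range (2 ^ (m + 1)),
      ∀ l ∈ Finset.range (2 ^ (m + 1)),
      ∫ x in cell d ((2 ^ (m + 1) * n 0 + i : ℕ) : ℝ) ×ˢ cell d ((2 ^ (m + 1) * n 1 + j : ℕ) : ℝ) ×ˢ
        cell d ((2 ^ (m + 1) * n 2 + l : ℕ) : ℝ), integrand k n F x
      = d ^ 3 * ∫ x in U3, MM K (F 0) x.1 x.2.1 (2 ^ (m + 1) * n 0 + i) (2 ^ (m + 1) * n 1 + j)
        * MM K (F 1) x.2.1 x.2.2 (2 ^ (m + 1) * n 1 + j) (2 ^ (m + 1) * n 2 + l)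
        * MM K (F 2) x.2.2 x.1 (2 ^ (m + 1) * n 2 + l) (2 ^ (m + 1) * n 0 + i)
        * (sg (m + 1) i * sg (m + 1) j * sg (m + 1) l) := by
    intro i hi j hj l hl
    rw [Finset.mem_range] at hi hj hl
    rw [box3 hdpos]
    congr 1
    refine setIntegral_congr_fun measurableSet_U3 (fun x hx => ?_)
    have hx1 : x.1 ∈ UI := hx.1
    have hx2 : x.2.1 ∈ UI := hx.2.1
    have hx3 : x.2.2 ∈ UI := hx.2.2
    simp only [integrand, MM]
    rw [haar_cell K m (n 0) i hi x.1 hx1, haar_cell K m (n 1) j hj x.2.1 hx2,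
      haar_cell K m (n 2) l hl x.2.2 hx3]
  rw [Finset.sum_congr rfl (fun i hi => Finset.sum_congr rfl (fun j hj =>
    Finset.sum_congr rfl (fun l hl => hbox i hi j hj l hl)))]
  -- integrability of each term
  have hMM : ∀ (v : Fin 3) (a b : ℕ), Measurable (fun y : ℝ × ℝ => MM K (F v) y.1 y.2 a b) := by
    intro v a b
    unfold MM
    have := hF v
    fun_prop
  have hterm : ∀ i j l : ℕ, IntegrableOn (fun x : ℝ × ℝ × ℝ =>
      MM K (F 0) x.1 x.2.1 (2 ^ (m + 1) * n 0 + i) (2 ^ (m + 1) * n 1 + j)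
        * MM K (F 1) x.2.1 x.2.2 (2 ^ (m + 1) * n 1 + j) (2 ^ (m + 1) * n 2 + l)
        * MM K (F 2) x.2.2 x.1 (2 ^ (m + 1) * n 2 + l) (2 ^ (m + 1) * n 0 + i)
        * (sg (m + 1) i * sg (m + 1) j * sg (m + 1) l)) U3 := by
    intro i j l
    refine Integrable.mul_const ?_ _
    refine bdd_integrableOn measurableSet_U3 (by rw [volume_U3]; exact ENNReal.one_lt_top) ?_
      (C := M ^ 3) ?_
    · have a0 := (hMM 0 (2 ^ (m + 1) * n 0 + i) (2 ^ (m + 1) * n 1 + j)).comp
        (measurable_fst.prodMk (measurable_fst.comp measurable_snd) :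
          Measurable (fun x : ℝ × ℝ × ℝ => (x.1, x.2.1)))
      have a1 := (hMM 1 (2 ^ (m + 1) * n 1 + j) (2 ^ (m + 1) * n 2 + l)).comp
        (measurable_snd : Measurable (fun x : ℝ × ℝ × ℝ => x.2))
      have a2 := (hMM 2 (2 ^ (m + 1) * n 2 + l) (2 ^ (m + 1) * n 0 + i)).comp
        ((measurable_snd.comp measurable_snd).prodMk measurable_fst :
          Measurable (fun x : ℝ × ℝ × ℝ => (x.2.2, x.1)))
      exact (a0.mul a1).mul a2
    · intro x
      exact abs_mul3_le hM0 (hM 0 _) (hM 1 _) (hM 2 _)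
  have hsum : ∫ x in U3,
      latL (m + 1) (n 0) (n 1) (n 2) (MM K (F 0) x.1 x.2.1) (MM K (F 1) x.2.1 x.2.2)
        (MM K (F 2) x.2.2 x.1)
      = ((2 : ℝ) ^ (m + 1))⁻¹ * ∑ i ∈ Finset.range (2 ^ (m + 1)),
        ∑ j ∈ Finset.range (2 ^ (m + 1)), ∑ l ∈ Finset.range (2 ^ (m + 1)), ∫ x in U3,
        MM K (F 0) x.1 x.2.1 (2 ^ (m + 1) * n 0 + i) (2 ^ (m + 1) * n 1 + j)
        * MM K (F 1) x.2.1 x.2.2 (2 ^ (m + 1) * n 1 + j) (2 ^ (m + 1) * n 2 + l)
        * MM K (F 2) x.2.2 x.1 (2 ^ (m + 1) * n 2 + l) (2 ^ (m + 1) * n 0 + i)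
        * (sg (m + 1) i * sg (m + 1) j * sg (m + 1) l) := by
    simp only [latL]
    rw [integral_const_mul]
    congr 1
    rw [integral_finsetSum _ (fun i _ => integrable_finsetSum _ (fun j _ =>
      integrable_finsetSum _ (fun l _ => hterm i j l)))]
    refine Finset.sum_congr rfl (fun i _ => ?_)
    rw [integral_finsetSum _ (fun j _ => integrable_finsetSum _ (fun l _ => hterm i j l))]
    refine Finset.sum_congr rfl (fun j _ => ?_)
    rw [integral_finsetSum _ (fun l _ => hterm i j l)]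
  rw [hsum]
  simp only [← Finset.mul_sum]
  have hc : (2 : ℝ) ^ (-k) * d ^ 3 = d ^ 2 * ((2 : ℝ) ^ (m + 1))⁻¹ := by
    rw [hk, hd, zpow_neg, zpow_add₀ (by norm_num), zpow_natCast]
    field_simp
  rw [← mul_assoc, hc, mul_assoc]

end Vale.Agent.P075
end
end

section

section

set_option linter.unusedSectionVars false
set_option linter.unusedVariables false

namespace Vale.Agent.P075

open MeasureTheory Set

theorem measurable_MM (K : ℤ) {F : ℝ × ℝ → ℝ} (hF : Measurable F) (a b : ℕ) :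
    Measurable (fun y : ℝ × ℝ => MM K F y.1 y.2 a b) := by
  unfold MM
  fun_prop

theorem measurable_MM3 (K : ℤ) {F : ℝ × ℝ → ℝ} (hF : Measurable F) (a b : ℕ) :
    Measurable (fun y : ℝ × ℝ => |MM K F y.1 y.2 a b| ^ 3) :=
  (continuous_abs.measurable.comp (measurable_MM K hF a b)).pow_const 3

theorem integrable_latL (K : ℤ) (m p q s : ℕ) {F : Fin 3 → ℝ × ℝ → ℝ}
    (hF : ∀ v, Measurable (F v)) {M : ℝ} (hM0 : 0 ≤ M) (hM : ∀ v p, |F v p| ≤ M) :
    IntegrableOn (fun x : ℝ × ℝ × ℝ => latL m p q s (MM K (F 0) x.1 x.2.1)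
      (MM K (F 1) x.2.1 x.2.2) (MM K (F 2) x.2.2 x.1)) U3 := by
  unfold latL
  refine Integrable.const_mul ?_ _
  refine integrable_finsetSum _ (fun i _ => integrable_finsetSum _ (fun j _ =>
    integrable_finsetSum _ (fun l _ => ?_)))
  refine Integrable.mul_const ?_ _
  refine bdd_integrableOn measurableSet_U3 (by rw [volume_U3]; exact ENNReal.one_lt_top) ?_
    (C := M ^ 3) ?_
  · have a0 := (measurable_MM K (hF 0) (2 ^ m * p + i) (2 ^ m * q + j)).comp
      (measurable_fst.prodMk (measurable_fst.comp measurable_snd) :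
        Measurable (fun x : ℝ × ℝ × ℝ => (x.1, x.2.1)))
    have a1 := (measurable_MM K (hF 1) (2 ^ m * q + j) (2 ^ m * s + l)).comp
      (measurable_snd : Measurable (fun x : ℝ × ℝ × ℝ => x.2))
    have a2 := (measurable_MM K (hF 2) (2 ^ m * s + l) (2 ^ m * p + i)).comp
      ((measurable_snd.comp measurable_snd).prodMk measurable_fst :
        Measurable (fun x : ℝ × ℝ × ℝ => (x.2.2, x.1)))
    exact (a0.mul a1).mul a2
  · intro x
    exact abs_mul3_le hM0 (hM 0 _) (hM 1 _) (hM 2 _)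

theorem restrict_U3 : (volume : Measure (ℝ × ℝ × ℝ)).restrict U3
    = (volume.restrict UI).prod ((volume.restrict UI).prod (volume.restrict UI)) := by
  rw [Measure.prod_restrict, Measure.prod_restrict]
  rfl

theorem restrict_U2 : (volume : Measure (ℝ × ℝ)).restrict U2
    = (volume.restrict UI).prod (volume.restrict UI) := by
  rw [Measure.prod_restrict]
  rfl

instance instProbUI : IsProbabilityMeasure ((volume : Measure ℝ).restrict UI) :=
  ⟨by rw [Measure.restrict_apply_univ, volume_UI]⟩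

theorem mp01 : MeasurePreserving (fun x : ℝ × ℝ × ℝ => (x.1, x.2.1))
    ((volume : Measure (ℝ × ℝ × ℝ)).restrict U3) ((volume : Measure (ℝ × ℝ)).restrict U2) := by
  rw [restrict_U3, restrict_U2]
  exact (MeasurePreserving.id _).prod measurePreserving_fst

theorem mp12 : MeasurePreserving (fun x : ℝ × ℝ × ℝ => (x.2.1, x.2.2))
    ((volume : Measure (ℝ × ℝ × ℝ)).restrict U3) ((volume : Measure (ℝ × ℝ)).restrict U2) := by
  rw [restrict_U3, restrict_U2]
  exact measurePreserving_snd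

theorem mp20 : MeasurePreserving (fun x : ℝ × ℝ × ℝ => (x.2.2, x.1))
    ((volume : Measure (ℝ × ℝ × ℝ)).restrict U3) ((volume : Measure (ℝ × ℝ)).restrict U2) := by
  rw [restrict_U3, restrict_U2]
  have h := (MeasurePreserving.id ((volume : Measure ℝ).restrict UI)).prod
    (measurePreserving_snd (μ := (volume : Measure ℝ).restrict UI)
      (ν := (volume : Measure ℝ).restrict UI))
  exact Measure.measurePreserving_swap.comp h

theorem proj_integral {φ : ℝ × ℝ × ℝ → ℝ × ℝ}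
    (hφ : MeasurePreserving φ ((volume : Measure (ℝ × ℝ × ℝ)).restrict U3)
      ((volume : Measure (ℝ × ℝ)).restrict U2)) {g : ℝ × ℝ → ℝ} (hg : Measurable g) :
    ∫ x in U3, g (φ x) = ∫ y in U2, g y := by
  rw [← hφ.map_eq]
  exact (integral_map hφ.measurable.aemeasurable hg.aestronglyMeasurable).symm

/-- the top square -/
def topSq (K : ℤ) (n : ℕ) : Set (ℝ × ℝ) :=
  Set.Ico 0 ((2 : ℝ) ^ K * 2 ^ n) ×ˢ Set.Ico 0 ((2 : ℝ) ^ K * 2 ^ n)

theorem top_integral (K : ℤ) (n : ℕ) {F : ℝ × ℝ → ℝ} (hF : Measurable F) {M : ℝ} (hM0 : 0 ≤ M)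
    (hM : ∀ p, |F p| ≤ M) :
    ((2 : ℝ) ^ K) ^ 2 * ∑ i ∈ Finset.range (2 ^ n), ∑ j ∈ Finset.range (2 ^ n),
      ∫ y in U2, |MM K F y.1 y.2 i j| ^ 3 = ∫ x in topSq K n, |F x| ^ 3 := by
  set d : ℝ := (2 : ℝ) ^ K with hd
  have hdpos : 0 < d := by positivity
  have hU : ⋃ i ∈ Finset.range (2 ^ n), cell d ((0 + i : ℕ) : ℝ) = Set.Ico 0 (d * 2 ^ n) := by
    rw [iUnion_cell hdpos]; simp
  have hmeas : Measurable (fun x => |F x| ^ 3) := by fun_prop
  have hint : IntegrableOn (fun x => |F x| ^ 3) (topSq K n) := by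
    refine bdd_integrableOn (measurableSet_Ico.prod measurableSet_Ico) ?_ hmeas (C := M ^ 3) ?_
    · rw [Measure.volume_eq_prod, Measure.prod_prod, Real.volume_Ico]
      exact ENNReal.mul_lt_top ENNReal.ofReal_lt_top ENNReal.ofReal_lt_top
    · intro x
      rw [abs_of_nonneg (by positivity)]
      exact pow_le_pow_left₀ (abs_nonneg _) (hM x) 3
  rw [topSq, ← hd, ← hU] at *
  rw [integral_prod_union2 (2 ^ n) (fun i => measurableSet_cell _ _)
    (fun i => measurableSet_cell _ _)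
    (fun i j hij => cell_disjoint hdpos (by omega)) (fun i j hij => cell_disjoint hdpos (by omega))
    _ hint, Finset.mul_sum]
  refine Finset.sum_congr rfl (fun i _ => ?_)
  rw [Finset.mul_sum]
  refine Finset.sum_congr rfl (fun j _ => ?_)
  rw [box2 hdpos]
  simp only [zero_add]
  rfl

theorem total_le (K : ℤ) (n : ℕ) {F : Fin 3 → ℝ × ℝ → ℝ}
    (hF : ∀ v, Measurable (F v)) {M : ℝ} (hM0 : 0 ≤ M) (hM : ∀ v p, |F v p| ≤ M) :
    ∑ k ∈ Finset.Icc 1 n, ∑ p ∈ Finset.range (2 ^ (n - k)), ∑ q ∈ Finset.range (2 ^ (n - k)),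
      |LI (K + (k : ℕ)) ![p, q, p ^^^ q] F|
    ≤ (609 / 2) * ∑ v, ∫ x in topSq K n, |F v x| ^ 3 := by
  set d : ℝ := (2 : ℝ) ^ K with hd
  have hdpos : 0 < d := by positivity
  -- step 1: bound each LI
  have h1 : ∀ k ∈ Finset.Icc 1 n, ∀ p q : ℕ, |LI (K + (k : ℕ)) ![p, q, p ^^^ q] F|
      ≤ d ^ 2 * ∫ x in U3, |latL k p q (p ^^^ q) (MM K (F 0) x.1 x.2.1)
      (MM K (F 1) x.2.1 x.2.2) (MM K (F 2) x.2.2 x.1)| := by
    intro k hk p q
    rw [Finset.mem_Icc] at hk
    obtain ⟨m, rfl⟩ : ∃ m, k = m + 1 := ⟨k - 1, by omega⟩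
    rw [LI_eq K m ![p, q, p ^^^ q] hF hM0 hM, abs_mul, abs_of_pos (by positivity)]
    refine mul_le_mul_of_nonneg_left ?_ (by positivity)
    have := norm_integral_le_integral_norm (μ := volume.restrict U3)
      (fun x : ℝ × ℝ × ℝ => latL (m + 1) p q (p ^^^ q) (MM K (F 0) x.1 x.2.1)
      (MM K (F 1) x.2.1 x.2.2) (MM K (F 2) x.2.2 x.1))
    simp only [Real.norm_eq_abs] at this
    exact this
  refine (Finset.sum_le_sum (fun k hk => Finset.sum_le_sum (fun p _ =>
    Finset.sum_le_sum (fun q _ => h1 k hk p q)))).trans ?_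
  -- step 2: exchange sum and integral
  have hI : ∀ k p q : ℕ, IntegrableOn (fun x : ℝ × ℝ × ℝ => |latL k p q (p ^^^ q)
      (MM K (F 0) x.1 x.2.1) (MM K (F 1) x.2.1 x.2.2) (MM K (F 2) x.2.2 x.1)|) U3 :=
    fun k p q => (integrable_latL K k p q (p ^^^ q) hF hM0 hM).abs
  have h2 : ∑ k ∈ Finset.Icc 1 n, ∑ p ∈ Finset.range (2 ^ (n - k)),
      ∑ q ∈ Finset.range (2 ^ (n - k)), d ^ 2 * ∫ x in U3, |latL k p q (p ^^^ q)
        (MM K (F 0) x.1 x.2.1) (MM K (F 1) x.2.1 x.2.2) (MM K (F 2) x.2.2 x.1)|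
      = d ^ 2 * ∫ x in U3, ∑ k ∈ Finset.Icc 1 n, ∑ p ∈ Finset.range (2 ^ (n - k)),
      ∑ q ∈ Finset.range (2 ^ (n - k)), |latL k p q (p ^^^ q)
        (MM K (F 0) x.1 x.2.1) (MM K (F 1) x.2.1 x.2.2) (MM K (F 2) x.2.2 x.1)| := by
    rw [integral_finsetSum _ (fun k _ => integrable_finsetSum _ (fun p _ =>
      integrable_finsetSum _ (fun q _ => hI k p q))), Finset.mul_sum]
    refine Finset.sum_congr rfl (fun k _ => ?_)
    rw [integral_finsetSum _ (fun p _ => integrable_finsetSum _ (fun q _ => hI k p q)),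
      Finset.mul_sum]
    refine Finset.sum_congr rfl (fun p _ => ?_)
    rw [integral_finsetSum _ (fun q _ => hI k p q), Finset.mul_sum]
  rw [h2]
  -- step 3: apply the lattice theorem pointwise
  have hcube : ∀ (v : Fin 3) (φ : ℝ × ℝ × ℝ → ℝ × ℝ) (hφ : Measurable φ) (i j : ℕ),
      IntegrableOn (fun x : ℝ × ℝ × ℝ => |MM K (F v) (φ x).1 (φ x).2 i j| ^ 3) U3 := by
    intro v φ hφ i j
    refine bdd_integrableOn measurableSet_U3 (by rw [volume_U3]; exact ENNReal.one_lt_top) ?_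
      (C := M ^ 3) ?_
    · have hm : Measurable (fun y : ℝ × ℝ => |MM K (F v) y.1 y.2 i j| ^ 3) :=
        measurable_MM3 K (hF v) i j
      exact hm.comp hφ
    · intro x
      rw [abs_of_nonneg (by positivity)]
      exact pow_le_pow_left₀ (abs_nonneg _) (hM v _) 3
  have c0 := hcube 0 (fun x => (x.1, x.2.1)) mp01.measurable
  have c1 := hcube 1 (fun x => (x.2.1, x.2.2)) mp12.measurable
  have c2 := hcube 2 (fun x => (x.2.2, x.1)) mp20.measurable
  have c012 : ∀ i j : ℕ, IntegrableOn (fun x : ℝ × ℝ × ℝ => |MM K (F 0) x.1 x.2.1 i j| ^ 3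
        + |MM K (F 1) x.2.1 x.2.2 i j| ^ 3 + |MM K (F 2) x.2.2 x.1 i j| ^ 3) U3 :=
    fun i j => ((c0 i j).add (c1 i j)).add (c2 i j)
  have hR : IntegrableOn (fun x : ℝ × ℝ × ℝ => (609 / 2) * ∑ i ∈ Finset.range (2 ^ n),
      ∑ j ∈ Finset.range (2 ^ n), (|MM K (F 0) x.1 x.2.1 i j| ^ 3
        + |MM K (F 1) x.2.1 x.2.2 i j| ^ 3 + |MM K (F 2) x.2.2 x.1 i j| ^ 3)) U3 :=
    Integrable.const_mul (integrable_finsetSum _ (fun i _ => integrable_finsetSum _ (fun j _ =>
      c012 i j))) _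
  have h3 : ∫ x in U3, ∑ k ∈ Finset.Icc 1 n, ∑ p ∈ Finset.range (2 ^ (n - k)),
      ∑ q ∈ Finset.range (2 ^ (n - k)), |latL k p q (p ^^^ q)
        (MM K (F 0) x.1 x.2.1) (MM K (F 1) x.2.1 x.2.2) (MM K (F 2) x.2.2 x.1)|
      ≤ ∫ x in U3, (609 / 2) * ∑ i ∈ Finset.range (2 ^ n),
      ∑ j ∈ Finset.range (2 ^ n), (|MM K (F 0) x.1 x.2.1 i j| ^ 3
        + |MM K (F 1) x.2.1 x.2.2 i j| ^ 3 + |MM K (F 2) x.2.2 x.1 i j| ^ 3) := by
    refine integral_mono (integrable_finsetSum _ (fun k _ => integrable_finsetSum _ (fun p _ =>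
      integrable_finsetSum _ (fun q _ => hI k p q)))) hR (fun x => ?_)
    exact lattice n _ _ _
  refine (mul_le_mul_of_nonneg_left h3 (by positivity)).trans (le_of_eq ?_)
  rw [integral_const_mul]
  rw [integral_finsetSum _ (fun i _ => integrable_finsetSum _ (fun j _ => c012 i j))]
  have h4 : ∀ i ∈ Finset.range (2 ^ n), ∫ x in U3, ∑ j ∈ Finset.range (2 ^ n),
      (|MM K (F 0) x.1 x.2.1 i j| ^ 3
        + |MM K (F 1) x.2.1 x.2.2 i j| ^ 3 + |MM K (F 2) x.2.2 x.1 i j| ^ 3)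
      = ∑ j ∈ Finset.range (2 ^ n), ((∫ y in U2, |MM K (F 0) y.1 y.2 i j| ^ 3)
        + (∫ y in U2, |MM K (F 1) y.1 y.2 i j| ^ 3)
        + (∫ y in U2, |MM K (F 2) y.1 y.2 i j| ^ 3)) := by
    intro i _
    rw [integral_finsetSum _ (fun j _ => c012 i j)]
    refine Finset.sum_congr rfl (fun j _ => ?_)
    have e1 := integral_add ((c0 i j).add (c1 i j)) (c2 i j)
    have e2 := integral_add (c0 i j) (c1 i j)
    have m0 : ∀ v : Fin 3, Measurable (fun y : ℝ × ℝ => |MM K (F v) y.1 y.2 i j| ^ 3) :=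
      fun v => measurable_MM3 K (hF v) i j
    have p0 := proj_integral mp01 (m0 0)
    have p1 := proj_integral mp12 (m0 1)
    have p2 := proj_integral mp20 (m0 2)
    simp only [Pi.add_apply] at e1 e2
    rw [e1, e2, p0, p1, p2]
  rw [Finset.sum_congr rfl h4]
  simp only [Finset.sum_add_distrib]
  have t0 := top_integral K n (hF 0) hM0 (hM 0)
  have t1 := top_integral K n (hF 1) hM0 (hM 1)
  have t2 := top_integral K n (hF 2) hM0 (hM 2)
  rw [← hd] at t0 t1 t2
  rw [Fin.sum_univ_three, ← t0, ← t1, ← t2]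
  ring

end Vale.Agent.P075
end
end

section

section

set_option linter.unusedSectionVars false
set_option linter.unusedVariables false

namespace Vale.Agent.P075

open MeasureTheory Set Filter Topology

/-- the closed quadrant -/
def quad : Set (ℝ × ℝ) := Set.Ici 0 ×ˢ Set.Ici 0

/-- pairs of indices parametrise the triples with XOR zero -/
def xorEquiv : ℕ × ℕ ≃ {n : Fin 3 → ℕ // n 0 ^^^ n 1 ^^^ n 2 = 0} where
  toFun p := ⟨![p.1, p.2, p.1 ^^^ p.2], by simp⟩
  invFun t := (t.1 0, t.1 1)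
  left_inv p := by simp
  right_inv t := by
    obtain ⟨n, hn⟩ := t
    have h : n 0 ^^^ n 1 = n 2 := by
      have := congrArg (fun z => z ^^^ n 2) hn
      simpa [Nat.xor_assoc] using this
    apply Subtype.ext
    funext i
    fin_cases i
    · rfl
    · rfl
    · exact h

/-- support condition -/
def SuppIn (R : ℝ) (F : ℝ × ℝ → ℝ) : Prop := ∀ p : ℝ × ℝ, (R ≤ p.1 ∨ R ≤ p.2) → F p = 0

theorem LI_zero {K : ℤ} {n j p q : ℕ} (hj : j ≤ n) {F : Fin 3 → ℝ × ℝ → ℝ} {R : ℝ}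
    (hR : SuppIn R (F 0)) (hRK : R ≤ (2 : ℝ) ^ K * 2 ^ n)
    (h : 2 ^ (n - j) ≤ p ∨ 2 ^ (n - j) ≤ q) :
    LI (K + (j : ℕ)) ![p, q, p ^^^ q] F = 0 := by
  have hpow : ∀ (r : ℕ), 2 ^ (n - j) ≤ r → ∀ x ∈ dyad (K + (j : ℕ)) r, R ≤ x := by
    intro r hr x hx
    have h1 : (2 : ℝ) ^ (K + (j : ℤ)) * r ≤ x := hx.1
    have h2 : (2 : ℝ) ^ (K + (j : ℤ)) = (2 : ℝ) ^ K * 2 ^ j := by
      rw [zpow_add₀ (by norm_num)]; simp
    have h3 : (2 : ℝ) ^ (n - j) ≤ (r : ℝ) := by exact_mod_cast hr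
    have h4 : (2 : ℝ) ^ K * 2 ^ n = (2 : ℝ) ^ K * 2 ^ j * 2 ^ (n - j) := by
      rw [mul_assoc, ← pow_add]; congr 2; omega
    rw [h2] at h1
    calc R ≤ (2 : ℝ) ^ K * 2 ^ n := hRK
      _ = (2 : ℝ) ^ K * 2 ^ j * 2 ^ (n - j) := h4
      _ ≤ (2 : ℝ) ^ K * 2 ^ j * r := by gcongr
      _ ≤ x := h1
  rw [LI]
  have hz : ∫ x in dyad (K + (j : ℕ)) (![p, q, p ^^^ q] 0) ×ˢ dyad (K + (j : ℕ)) (![p, q, p ^^^ q] 1)
      ×ˢ dyad (K + (j : ℕ)) (![p, q, p ^^^ q] 2),
      F 0 (x.1, x.2.1) * F 1 (x.2.1, x.2.2) * F 2 (x.2.2, x.1) *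
      (haar (K + (j : ℕ)) (![p, q, p ^^^ q] 0) x.1 * haar (K + (j : ℕ)) (![p, q, p ^^^ q] 1) x.2.1
        * haar (K + (j : ℕ)) (![p, q, p ^^^ q] 2) x.2.2) = 0 := by
    refine setIntegral_eq_zero_of_forall_eq_zero (fun x hx => ?_)
    have h0 : F 0 (x.1, x.2.1) = 0 := by
      apply hR
      rcases h with h | h
      · left; exact hpow p h x.1 hx.1
      · right; exact hpow q h x.2.1 hx.2.1
    rw [h0]; ring
  rw [hz, mul_zero]

/-- the sum over all triples reduces to a finite sum -/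
theorem tsum_eq {K : ℤ} {n j : ℕ} (hj : j ≤ n) {F : Fin 3 → ℝ × ℝ → ℝ} {R : ℝ}
    (hR : SuppIn R (F 0)) (hRK : R ≤ (2 : ℝ) ^ K * 2 ^ n) :
    ∑' t : {n : Fin 3 → ℕ // n 0 ^^^ n 1 ^^^ n 2 = 0}, LI (K + (j : ℕ)) t.1 F
      = ∑ p ∈ Finset.range (2 ^ (n - j)), ∑ q ∈ Finset.range (2 ^ (n - j)),
        LI (K + (j : ℕ)) ![p, q, p ^^^ q] F := by
  rw [← xorEquiv.tsum_eq, tsum_eq_sum (s := Finset.range (2 ^ (n - j)) ×ˢ Finset.range (2 ^ (n - j))),
    Finset.sum_product]
  · rfl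
  · intro b hb
    apply LI_zero hj hR hRK
    simp only [Finset.mem_product, Finset.mem_range, not_and_or, not_lt] at hb
    exact hb

theorem form_sum_le (S : Finset ℤ) (ε : ℤ → ℝ) (hε : ∀ k ∈ S, |ε k| ≤ 1)
    {F : Fin 3 → ℝ × ℝ → ℝ} (hF : ∀ v, Measurable (F v)) {M : ℝ} (hM0 : 0 ≤ M)
    (hM : ∀ v p, |F v p| ≤ M) {R : ℝ} (hR : ∀ v, SuppIn R (F v))
    (hI : ∀ v, IntegrableOn (fun x => |F v x| ^ 3) quad) :
    |form S ε F| ≤ (609 / 2) * ∑ v, ∫ x in quad, |F v x| ^ 3 := by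
  -- choose the bottom scale
  obtain ⟨K, hK⟩ : ∃ K : ℤ, ∀ k ∈ S, K < k := by
    obtain ⟨b, hb⟩ := S.bddBelow
    exact ⟨b - 1, fun k hk => by have := hb hk; omega⟩
  obtain ⟨T, hT⟩ : ∃ T : ℤ, ∀ k ∈ S, k ≤ T := by
    obtain ⟨b, hb⟩ := S.bddAbove
    exact ⟨b, fun k hk => hb hk⟩
  obtain ⟨n0, hn0⟩ : ∃ n0 : ℕ, R ≤ (2 : ℝ) ^ K * 2 ^ n0 := by
    have hpos : (0 : ℝ) < (2 : ℝ) ^ K := by positivity
    obtain ⟨n0, hn0⟩ := pow_unbounded_of_one_lt (R / (2 : ℝ) ^ K) (by norm_num : (1 : ℝ) < 2)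
    refine ⟨n0, ?_⟩
    rw [div_lt_iff₀ hpos] at hn0
    linarith
  set n : ℕ := max n0 (T - K).toNat with hn
  have hRK : R ≤ (2 : ℝ) ^ K * 2 ^ n := by
    refine hn0.trans ?_
    have : (2 : ℝ) ^ n0 ≤ 2 ^ n := pow_le_pow_right₀ (by norm_num) (le_max_left _ _)
    gcongr
  set a : ℕ → ℝ := fun j => ∑ p ∈ Finset.range (2 ^ (n - j)), ∑ q ∈ Finset.range (2 ^ (n - j)),
      |LI (K + (j : ℕ)) ![p, q, p ^^^ q] F| with ha
  have ha0 : ∀ j, 0 ≤ a j := fun j => Finset.sum_nonneg fun p _ => Finset.sum_nonneg fun q _ =>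
    abs_nonneg _
  have hj : ∀ k ∈ S, 1 ≤ (k - K).toNat ∧ (k - K).toNat ≤ n ∧ K + ((k - K).toNat : ℕ) = k := by
    intro k hk
    have h1 := hK k hk
    have h2 := hT k hk
    have h3 : (T - K).toNat ≤ n := le_max_right _ _
    refine ⟨by omega, by omega, by omega⟩
  have h1 : |form S ε F| ≤ ∑ k ∈ S, a (k - K).toNat := by
    rw [form]
    refine (Finset.abs_sum_le_sum_abs _ _).trans (Finset.sum_le_sum (fun k hk => ?_))
    obtain ⟨h1, h2, h3⟩ := hj k hk
    rw [abs_mul]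
    have h4 : |∑' t : {n : Fin 3 → ℕ // n 0 ^^^ n 1 ^^^ n 2 = 0}, LI k t.1 F| ≤ a (k - K).toNat := by
      rw [ha]
      conv_lhs => rw [← h3]
      rw [tsum_eq h2 (hR 0) hRK]
      refine (Finset.abs_sum_le_sum_abs _ _).trans (Finset.sum_le_sum (fun p _ => ?_))
      exact Finset.abs_sum_le_sum_abs _ _
    calc |ε k| * |∑' t : {n : Fin 3 → ℕ // n 0 ^^^ n 1 ^^^ n 2 = 0}, LI k t.1 F|
        ≤ 1 * a (k - K).toNat := by
          exact mul_le_mul (hε k hk) h4 (abs_nonneg _) zero_le_one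
      _ = _ := one_mul _
  have h2 : ∑ k ∈ S, a (k - K).toNat ≤ ∑ j ∈ Finset.Icc 1 n, a j := by
    have hinj : Set.InjOn (fun k : ℤ => (k - K).toNat) S := by
      intro k hk k' hk' h
      have a1 := hK k hk
      have a2 := hK k' hk'
      simp only at h
      omega
    rw [← Finset.sum_image (f := a) hinj]
    refine Finset.sum_le_sum_of_subset_of_nonneg ?_ (fun j _ _ => ha0 j)
    intro j hj'
    rw [Finset.mem_image] at hj'
    obtain ⟨k, hk, rfl⟩ := hj'
    obtain ⟨h1, h2, h3⟩ := hj k hk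
    exact Finset.mem_Icc.mpr ⟨h1, h2⟩
  have h3 := total_le K n hF hM0 hM
  refine h1.trans (h2.trans (h3.trans ?_))
  refine mul_le_mul_of_nonneg_left (Finset.sum_le_sum (fun v _ => ?_)) (by norm_num)
  refine setIntegral_mono_set (hI v) (Eventually.of_forall (fun x => by positivity)) ?_
  refine LE.le.eventuallyLE ?_
  exact Set.prod_mono (fun x hx => hx.1) (fun x hx => hx.1)

theorem LI_smul (k : ℤ) (n : Fin 3 → ℕ) (F : Fin 3 → ℝ × ℝ → ℝ) (c : Fin 3 → ℝ) :
    LI k n (fun v p => c v * F v p) = (∏ v, c v) * LI k n F := by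
  rw [LI, LI, Fin.prod_univ_three, mul_left_comm]
  congr 1
  rw [← integral_const_mul]
  congr 1
  funext x
  ring

theorem form_smul (S : Finset ℤ) (ε : ℤ → ℝ) (F : Fin 3 → ℝ × ℝ → ℝ) (c : Fin 3 → ℝ) :
    form S ε (fun v p => c v * F v p) = (∏ v, c v) * form S ε F := by
  rw [form, form, Finset.mul_sum]
  refine Finset.sum_congr rfl (fun k _ => ?_)
  simp only [LI_smul]
  rw [tsum_mul_left]
  ring

/-- product form of the bound -/
theorem form_prod_le (S : Finset ℤ) (ε : ℤ → ℝ) (hε : ∀ k ∈ S, |ε k| ≤ 1)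
    {F : Fin 3 → ℝ × ℝ → ℝ} (hF : ∀ v, Measurable (F v)) {M : ℝ} (hM0 : 0 ≤ M)
    (hM : ∀ v p, |F v p| ≤ M) {R : ℝ} (hR : ∀ v, SuppIn R (F v))
    (hI : ∀ v, IntegrableOn (fun x => |F v x| ^ 3) quad) {N : Fin 3 → ℝ} (hN0 : ∀ v, 0 ≤ N v)
    (hN : ∀ v, ∫ x in quad, |F v x| ^ 3 = N v ^ 3) :
    |form S ε F| ≤ (1827 / 2) * ∏ v, N v := by
  have key : ∀ δ : ℝ, 0 < δ → |form S ε F| ≤ (1827 / 2) * ∏ v, (N v + δ) := by
    intro δ hδ
    set c : Fin 3 → ℝ := fun v => (N v + δ)⁻¹ with hc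
    have hNδ : ∀ v, 0 < N v + δ := fun v => by have := hN0 v; linarith
    have hcpos : ∀ v, 0 < c v := fun v => inv_pos.mpr (hNδ v)
    set C : ℝ := ∑ v, c v with hC
    have hcC : ∀ v, c v ≤ C := fun v => Finset.single_le_sum (f := c) (fun i _ => (hcpos i).le)
      (Finset.mem_univ v)
    have hC0 : 0 ≤ C := Finset.sum_nonneg (fun v _ => (hcpos v).le)
    have h := form_sum_le S ε hε (F := fun v p => c v * F v p) (fun v => (hF v).const_mul (c v))
      (M := C * M) (by positivity)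
      (fun v p => by
        rw [abs_mul, abs_of_pos (hcpos v)]
        exact mul_le_mul (hcC v) (hM v p) (abs_nonneg _) hC0)
      (R := R) (fun v p hp => by
        change c v * F v p = 0
        rw [hR v p hp, mul_zero])
      (fun v => by
        have := (hI v).const_mul (c v ^ 3)
        refine this.congr (Eventually.of_forall (fun x => ?_))
        simp only
        rw [abs_mul, abs_of_pos (hcpos v), mul_pow])
    rw [form_smul, abs_mul] at h
    have h2 : ∀ v, ∫ x in quad, |c v * F v x| ^ 3 ≤ 1 := by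
      intro v
      have e : ∀ x, |c v * F v x| ^ 3 = c v ^ 3 * |F v x| ^ 3 := fun x => by
        rw [abs_mul, abs_of_pos (hcpos v), mul_pow]
      simp only [e]
      rw [integral_const_mul, hN v, ← mul_pow]
      refine pow_le_one₀ (mul_nonneg (hcpos v).le (hN0 v)) ?_
      rw [hc]
      change (N v + δ)⁻¹ * N v ≤ 1
      rw [inv_mul_le_iff₀ (hNδ v)]
      linarith
    have h3 : ∑ v, ∫ x in quad, |c v * F v x| ^ 3 ≤ 3 := by
      calc ∑ v, ∫ x in quad, |c v * F v x| ^ 3 ≤ ∑ v : Fin 3, (1 : ℝ) :=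
            Finset.sum_le_sum (fun v _ => h2 v)
        _ = 3 := by simp
    have hP : 0 < ∏ v, (N v + δ) := Finset.prod_pos (fun v _ => hNδ v)
    have hcP : ∏ v, c v = (∏ v, (N v + δ))⁻¹ := by
      rw [hc]; exact Finset.prod_inv_distrib _
    rw [hcP, abs_of_pos (inv_pos.mpr hP)] at h
    have h4 : (∏ v, (N v + δ))⁻¹ * |form S ε F| ≤ 1827 / 2 := by linarith
    rw [inv_mul_le_iff₀ hP] at h4
    linarith
  have hlim : Tendsto (fun δ : ℝ => (1827 / 2) * ∏ v, (N v + δ)) (𝓝[>] 0)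
      (𝓝 ((1827 / 2) * ∏ v, (N v + 0))) := by
    have hcont : Continuous (fun δ : ℝ => (1827 / 2) * ∏ v, (N v + δ)) := by
      fun_prop
    exact (hcont.tendsto 0).mono_left nhdsWithin_le_nhds
  simp only [add_zero] at hlim
  refine ge_of_tendsto hlim ?_
  filter_upwards [self_mem_nhdsWithin] with δ hδ
  exact key δ hδ

end Vale.Agent.P075
end
end

section

section

set_option linter.unusedSectionVars false
set_option linter.unusedVariables false

namespace Vale.Agent.P075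

open MeasureTheory Set Filter Topology

theorem qmp01 : Measure.QuasiMeasurePreserving (fun x : ℝ × ℝ × ℝ => (x.1, x.2.1))
    (volume : Measure (ℝ × ℝ × ℝ)) (volume : Measure (ℝ × ℝ)) :=
  QuasiMeasurePreserving.prodMap (Measure.QuasiMeasurePreserving.id _)
    Measure.quasiMeasurePreserving_fst

theorem qmp12 : Measure.QuasiMeasurePreserving (fun x : ℝ × ℝ × ℝ => (x.2.1, x.2.2))
    (volume : Measure (ℝ × ℝ × ℝ)) (volume : Measure (ℝ × ℝ)) :=
  Measure.quasiMeasurePreserving_snd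

theorem qmp20 : Measure.QuasiMeasurePreserving (fun x : ℝ × ℝ × ℝ => (x.2.2, x.1))
    (volume : Measure (ℝ × ℝ × ℝ)) (volume : Measure (ℝ × ℝ)) := by
  have h : Measure.QuasiMeasurePreserving (fun x : ℝ × ℝ × ℝ => (x.1, x.2.2))
    (volume : Measure (ℝ × ℝ × ℝ)) (volume : Measure (ℝ × ℝ)) :=
    QuasiMeasurePreserving.prodMap (Measure.QuasiMeasurePreserving.id _)
      Measure.quasiMeasurePreserving_snd
  exact (Measure.measurePreserving_swap (μ := (volume : Measure ℝ))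
    (ν := (volume : Measure ℝ))).quasiMeasurePreserving.comp h

theorem LI_congr {F G : Fin 3 → ℝ × ℝ → ℝ} (h : ∀ v, F v =ᵐ[volume] G v) (k : ℤ)
    (n : Fin 3 → ℕ) : LI k n F = LI k n G := by
  rw [LI, LI]
  congr 1
  refine integral_congr_ae (ae_restrict_of_ae ?_)
  filter_upwards [qmp01.ae (h 0), qmp12.ae (h 1), qmp20.ae (h 2)] with x h0 h1 h2
  rw [h0, h1, h2]

theorem form_congr {F G : Fin 3 → ℝ × ℝ → ℝ} (h : ∀ v, F v =ᵐ[volume] G v) (S : Finset ℤ)
    (ε : ℤ → ℝ) : form S ε F = form S ε G := by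
  simp only [form, LI_congr h]

theorem eLpNorm_cube {F : ℝ × ℝ → ℝ} (hF : Measurable F)
    (hI : IntegrableOn (fun x => |F x| ^ 3) quad) :
    ∫ x in quad, |F x| ^ 3 = (eLpNorm F 3 (volume.restrict quad)).toReal ^ 3 := by
  have hmem : MemLp F 3 (volume.restrict quad) := by
    rw [← integrable_norm_rpow_iff hF.aestronglyMeasurable (by norm_num) (by norm_num)]
    refine hI.congr (Eventually.of_forall (fun x => ?_))
    simp [Real.norm_eq_abs]
  rw [hmem.eLpNorm_eq_integral_rpow_norm (by norm_num) (by norm_num)]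
  have h0 : 0 ≤ ∫ x in quad, |F x| ^ 3 := integral_nonneg (fun x => by positivity)
  have h1 : ∫ x in quad, ‖F x‖ ^ (3 : ENNReal).toReal = ∫ x in quad, |F x| ^ 3 := by
    congr 1
    funext x
    simp [Real.norm_eq_abs]
  rw [h1, ENNReal.toReal_ofReal (by positivity)]
  have h3 : (3 : ENNReal).toReal = 3 := by simp
  rw [h3, ← Real.rpow_natCast, ← Real.rpow_mul h0]
  norm_num

theorem main_borel (S : Finset ℤ) (ε : ℤ → ℝ) (hε : ∀ k ∈ S, |ε k| ≤ 1)
    {F : Fin 3 → ℝ × ℝ → ℝ} (hF : ∀ v, Measurable (F v)) {M : ℝ} (hM0 : 0 ≤ M)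
    (hM : ∀ v p, |F v p| ≤ M) {R : ℝ} (hR : ∀ v p, (R ≤ |Prod.fst p| ∨ R ≤ |Prod.snd p|) → F v p = 0) :
    |form S ε F| ≤ (1827 / 2) * ∏ v, (eLpNorm (F v) 3 (volume.restrict quad)).toReal := by
  have hI : ∀ v, IntegrableOn (fun x => |F v x| ^ 3) quad := by
    intro v
    have h1 : IntegrableOn (fun x => |F v x| ^ 3) (Set.Icc (-R) R ×ˢ Set.Icc (-R) R) := by
      refine bdd_integrableOn (measurableSet_Icc.prod measurableSet_Icc) ?_
        ((continuous_abs.measurable.comp (hF v)).pow_const 3) (C := M ^ 3) ?_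
      · rw [Measure.volume_eq_prod, Measure.prod_prod, Real.volume_Icc]
        exact ENNReal.mul_lt_top ENNReal.ofReal_lt_top ENNReal.ofReal_lt_top
      · intro x
        rw [abs_of_nonneg (by positivity)]
        exact pow_le_pow_left₀ (abs_nonneg _) (hM v x) 3
    have h2 : Integrable (fun x => |F v x| ^ 3) := by
      rw [← integrableOn_iff_integrable_of_support_subset (s := Set.Icc (-R) R ×ˢ Set.Icc (-R) R)]
      · exact h1
      · intro x hx
        by_contra hxn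
        apply hx
        have hz : F v x = 0 := by
          apply hR v x
          simp only [Set.mem_prod, Set.mem_Icc, not_and_or, not_le] at hxn
          rcases hxn with (h | h) | (h | h)
          · left; rw [le_abs]; right; linarith
          · left; rw [le_abs]; left; linarith
          · right; rw [le_abs]; right; linarith
          · right; rw [le_abs]; left; linarith
        simp only
        rw [hz]; simp
    exact h2.integrableOn
  refine form_prod_le S ε hε hF hM0 hM (R := R) (fun v p hp => hR v p ?_) hI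
    (fun v => ENNReal.toReal_nonneg) (fun v => eLpNorm_cube (hF v) (hI v))
  rcases hp with h | h
  · left; exact h.trans (le_abs_self _)
  · right; exact h.trans (le_abs_self _)

/-- Main theorem: the dyadic triangular form is bounded on `L³ × L³ × L³`. -/
theorem main (S : Finset ℤ) (ε : ℤ → ℝ) (hε : ∀ k ∈ S, |ε k| ≤ 1)
    (F : Fin 3 → ℝ × ℝ → ℝ) (hF : ∀ v, AEStronglyMeasurable (F v) volume)
    (hb : ∀ v, ∃ M : ℝ, ∀ p, |F v p| ≤ M) (hc : ∀ v, HasCompactSupport (F v)) :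
    |form S ε F| ≤ (1827 / 2) * ∏ v, (eLpNorm (F v) 3 (volume.restrict
      (Set.Ici (0 : ℝ) ×ˢ Set.Ici (0 : ℝ)))).toReal := by
  choose M hM using hb
  -- common bound
  set B : ℝ := ∑ v, |M v| with hB
  have hB0 : 0 ≤ B := Finset.sum_nonneg (fun v _ => abs_nonneg _)
  have hFB : ∀ v p, |F v p| ≤ B := fun v p => (hM v p).trans ((le_abs_self _).trans
    (Finset.single_le_sum (f := fun v => |M v|) (fun i _ => abs_nonneg _) (Finset.mem_univ v)))
  -- common radius
  have hrad : ∀ v, ∃ R : ℝ, ∀ p : ℝ × ℝ, (R ≤ |p.1| ∨ R ≤ |p.2|) → F v p = 0 := by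
    intro v
    obtain ⟨R, hR⟩ := (hc v).isCompact.isBounded.subset_closedBall 0
    refine ⟨R + 1, fun p hp => ?_⟩
    by_contra hne
    have hmem : p ∈ tsupport (F v) := subset_tsupport _ hne
    have h1 := hR hmem
    rw [Metric.mem_closedBall, dist_zero_right, Prod.norm_def, max_le_iff, Real.norm_eq_abs,
      Real.norm_eq_abs] at h1
    rcases hp with h | h
    · linarith [h1.1]
    · linarith [h1.2]
  choose Rv hRv using hrad
  set R : ℝ := ∑ v, |Rv v| with hRdef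
  have hRle : ∀ v, Rv v ≤ R := fun v => (le_abs_self _).trans
    (Finset.single_le_sum (f := fun v => |Rv v|) (fun i _ => abs_nonneg _) (Finset.mem_univ v))
  have hFR : ∀ v p, (R ≤ |Prod.fst p| ∨ R ≤ |Prod.snd p|) → F v p = 0 := by
    intro v p hp
    apply hRv v p
    rcases hp with h | h
    · left; exact (hRle v).trans h
    · right; exact (hRle v).trans h
  -- measurable modification
  classical
  set A : Set (ℝ × ℝ) := {p | |p.1| < R ∧ |p.2| < R} with hA
  have hAm : MeasurableSet A := by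
    have h1 : Measurable (fun p : ℝ × ℝ => |p.1|) := continuous_abs.measurable.comp measurable_fst
    have h2 : Measurable (fun p : ℝ × ℝ => |p.2|) := continuous_abs.measurable.comp measurable_snd
    exact (measurableSet_lt h1 measurable_const).inter (measurableSet_lt h2 measurable_const)
  set G : Fin 3 → ℝ × ℝ → ℝ := fun v => A.indicator (fun p => max (-B) (min B ((hF v).mk (F v) p)))
    with hG
  have hGm : ∀ v, Measurable (G v) := by
    intro v
    refine Measurable.indicator ?_ hAm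
    exact measurable_const.max (measurable_const.min (hF v).stronglyMeasurable_mk.measurable)
  have hGB : ∀ v p, |G v p| ≤ B := by
    intro v p
    by_cases hp : p ∈ A
    · rw [hG]
      simp only [indicator_of_mem hp]
      rw [abs_le]
      exact ⟨le_max_left _ _, max_le (by linarith) (min_le_left _ _)⟩
    · rw [hG]
      simp only [indicator_of_notMem hp, abs_zero]
      exact hB0
  have hGR : ∀ v p, (R ≤ |Prod.fst p| ∨ R ≤ |Prod.snd p|) → G v p = 0 := by
    intro v p hp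
    rw [hG]
    apply indicator_of_notMem
    intro hpA
    rcases hp with h | h
    · exact absurd hpA.1 (not_lt.mpr h)
    · exact absurd hpA.2 (not_lt.mpr h)
  have hFG : ∀ v, F v =ᵐ[volume] G v := by
    intro v
    filter_upwards [(hF v).ae_eq_mk] with p hp
    by_cases hpA : p ∈ A
    · rw [hG]
      simp only [indicator_of_mem hpA]
      rw [← hp]
      have := abs_le.mp (hFB v p)
      rw [min_eq_right this.2, max_eq_right this.1]
    · have : F v p = 0 := by
        apply hFR v p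
        rw [hA, Set.mem_ofPred_eq, not_and_or, not_lt, not_lt] at hpA
        exact hpA
      rw [this, hG]
      exact (indicator_of_notMem hpA _).symm
  rw [form_congr hFG]
  have hmain := main_borel S ε hε hGm hB0 hGB hGR
  refine hmain.trans (le_of_eq ?_)
  congr 1
  refine Finset.prod_congr rfl (fun v _ => ?_)
  congr 1
  exact eLpNorm_congr_ae (ae_restrict_of_ae (hFG v).symm)

end Vale.Agent.P075
end
end
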